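import Mathlib

/-!
P201, part A, block A2: the polynomials `P_i`, `Q_k`, their products and supports.
-/

namespace Vale.Agent.P201.Z.PA

open Finset AddMonoidAlgebra

/-- One coordinate of a monomial: no variable, or a variable to the power one (`false`) or two. -/
abbrev O (q : ℕ) : Type := Option (Bool × Fin q)

/-- Degree of a coordinate. -/
def ty {q : ℕ} : O q → ℕ
  | none => 0
  | some (false, _) => 1
  | some (true, _) => 2

/-- Exponent vector of a coordinate. -/
def vv {q : ℕ} : O q → Fin q → ℕ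
  | none => 0
  | some (t, s) => Pi.single s (if t then 2 else 1)

/-- The exponent of the variable `(j, s)`. -/
def bs (d q : ℕ) (j : Fin d) (s : Fin q) : ℕ := 5 ^ (finProdFinEquiv (j, s) : ℕ)

/-- The height of a coordinate, as a natural number. -/
def hc (d q : ℕ) (j : Fin d) (b : O q) : ℕ := ∑ s, vv b s * bs d q j s

/-- The height of a monomial. -/
def Hn {d q : ℕ} (a : Fin d → O q) : ℕ := ∑ j, hc d q j (a j)

/-- The height of a monomial. -/
def H {d q : ℕ} (a : Fin d → O q) : ℤ := (Hn a : ℤ)

/-! ### Digits -/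

theorem digits_inj {m : ℕ} (f g : Fin m → ℕ) (hf : ∀ x, f x < 5) (hg : ∀ x, g x < 5)
    (h : ∑ x, f x * 5 ^ (x : ℕ) = ∑ x, g x * 5 ^ (x : ℕ)) : f = g := by
  induction m with
  | zero => exact funext fun x => x.elim0
  | succ m ih =>
    rw [Fin.sum_univ_succ, Fin.sum_univ_succ] at h
    have e : ∀ u : Fin (m + 1) → ℕ, ∑ x : Fin m, u x.succ * 5 ^ ((x.succ : Fin (m + 1)) : ℕ) =
        5 * ∑ x : Fin m, u x.succ * 5 ^ (x : ℕ) := by
      intro u
      rw [mul_sum]
      refine sum_congr rfl fun x _ => ?_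
      rw [Fin.val_succ, pow_succ]
      ring
    rw [e, e] at h
    simp only [Fin.val_zero, pow_zero, mul_one] at h
    have h0 := hf 0
    have h1 := hg 0
    have h2 : f 0 = g 0 := by omega
    have h3 : ∑ x : Fin m, f x.succ * 5 ^ (x : ℕ) = ∑ x : Fin m, g x.succ * 5 ^ (x : ℕ) := by
      omega
    have h4 := ih (fun x => f x.succ) (fun x => g x.succ) (fun x => hf _) (fun x => hg _) h3
    funext x
    refine Fin.cases h2 (fun y => ?_) x
    exact congrFun h4 y

theorem vv_le {q : ℕ} (b : O q) (s : Fin q) : vv b s ≤ 2 := by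
  rcases b with _ | ⟨t, s'⟩
  · simp [vv]
  · by_cases hs : s = s'
    · subst hs
      cases t <;> simp [vv]
    · simp [vv, hs]

theorem Hn_eq {d q : ℕ} (a : Fin d → O q) :
    Hn a = ∑ x : Fin (d * q), vv (a (finProdFinEquiv.symm x).1) (finProdFinEquiv.symm x).2 *
      5 ^ (x : ℕ) := by
  unfold Hn hc bs
  rw [← Fintype.sum_prod_type' (f := fun j s => vv (a j) s * 5 ^ (finProdFinEquiv (j, s) : ℕ))]
  refine (Fintype.sum_equiv finProdFinEquiv.symm _ _ fun x => ?_).symm
  rw [Prod.mk.eta, Equiv.apply_symm_apply]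

/-- The four term relation between heights is a relation between exponent vectors. -/
theorem rel_of_H {d q : ℕ} {a1 a2 a3 a4 : Fin d → O q} (h : H a2 - H a1 = H a4 - H a3) (j : Fin d) :
    vv (a2 j) + vv (a3 j) = vv (a1 j) + vv (a4 j) := by
  have h1 : Hn a2 + Hn a3 = Hn a1 + Hn a4 := by
    unfold H at h
    omega
  rw [Hn_eq, Hn_eq, Hn_eq, Hn_eq, ← sum_add_distrib, ← sum_add_distrib] at h1
  simp only [← add_mul] at h1
  have h2 := digits_inj _ _ (fun x => ?_) (fun x => ?_) h1
  · funext s
    have h3 := congrFun h2 (finProdFinEquiv (j, s))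
    simpa using h3
  · have e1 := vv_le (a2 (finProdFinEquiv.symm x).1) (finProdFinEquiv.symm x).2
    have e2 := vv_le (a3 (finProdFinEquiv.symm x).1) (finProdFinEquiv.symm x).2
    omega
  · have e1 := vv_le (a1 (finProdFinEquiv.symm x).1) (finProdFinEquiv.symm x).2
    have e2 := vv_le (a4 (finProdFinEquiv.symm x).1) (finProdFinEquiv.symm x).2
    omega

theorem vv_inj {q : ℕ} : Function.Injective (vv (q := q)) := by
  intro b b' h
  rcases b with _ | ⟨t, s⟩ <;> rcases b' with _ | ⟨t', s'⟩
  · rfl
  · have := congrFun h s'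
    cases t' <;> simp [vv] at this
  · have := congrFun h s
    cases t <;> simp [vv] at this
  · have h1 := congrFun h s
    by_cases hs : s = s'
    · subst hs
      cases t <;> cases t' <;> simp_all [vv]
    · cases t <;> cases t' <;> simp [vv, hs] at h1

theorem H_inj {d q : ℕ} : Function.Injective (H (d := d) (q := q)) := by
  intro a a' h
  funext j
  have := rel_of_H (a1 := a) (a2 := a') (a3 := a) (a4 := a) (by rw [h]) j
  exact (vv_inj (by simpa using this)).symm

/-! ### The polynomials -/

/-- Laurent polynomials over `F_2`. -/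
abbrev R2 : Type := AddMonoidAlgebra (ZMod 2) ℤ

instance : CharP R2 2 := by
  refine charP_of_injective_algebraMap (R := ZMod 2) (A := R2) ?_ 2
  exact (algebraMap (ZMod 2) R2).injective

/-- The monomial of one coordinate. -/
noncomputable def X (d q : ℕ) (j : Fin d) (b : O q) : R2 := single ((hc d q j b : ℕ) : ℤ) 1

/-- The sum of the variables of the coordinate `j`. -/
noncomputable def L (d q : ℕ) (j : Fin d) : R2 := ∑ s, X d q j (some (false, s))

theorem prod_X {d q : ℕ} (a : Fin d → O q) : ∏ j, X d q j (a j) = single (H a) 1 := by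
  unfold X H Hn
  push_cast
  generalize (univ : Finset (Fin d)) = u
  induction u using Finset.induction_on with
  | empty => rw [prod_empty, sum_empty, AddMonoidAlgebra.one_def]
  | insert j u hj ih =>
    rw [prod_insert hj, sum_insert hj, ih, single_mul_single, one_mul]

theorem hc_some {d q : ℕ} (j : Fin d) (t : Bool) (s : Fin q) :
    hc d q j (some (t, s)) = (if t then 2 else 1) * bs d q j s := by
  unfold hc vv
  rw [Finset.sum_eq_single s (fun b _ hb => by simp [hb]) (by simp)]
  simp

theorem sum_ty_zero {d q : ℕ} (j : Fin d) : ∑ b ∈ univ.filter (fun b : O q => ty b = 0), X d q j b = 1 := by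
  have : univ.filter (fun b : O q => ty b = 0) = {none} := by
    ext b
    rw [mem_filter, mem_singleton]
    rcases b with _ | ⟨t, s⟩
    · simp [ty]
    · cases t <;> simp [ty]
  rw [this, sum_singleton]
  have h0 : hc d q j none = 0 := by simp [hc, vv]
  rw [X, h0, AddMonoidAlgebra.one_def, Nat.cast_zero]

theorem sum_ty_one {d q : ℕ} (j : Fin d) :
    ∑ b ∈ univ.filter (fun b : O q => ty b = 1), X d q j b = L d q j := by
  unfold L
  have : univ.filter (fun b : O q => ty b = 1) = univ.image (fun s : Fin q => some (false, s)) := by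
    ext b
    rw [mem_filter, mem_image]
    rcases b with _ | ⟨t, s⟩
    · simp [ty]
    · cases t <;> simp [ty]
  rw [this, sum_image]
  intro s _ s' _ h
  simpa using h

theorem sum_ty_two {d q : ℕ} (j : Fin d) :
    ∑ b ∈ univ.filter (fun b : O q => ty b = 2), X d q j b = L d q j ^ 2 := by
  unfold L
  rw [CharTwo.sum_sq]
  have : univ.filter (fun b : O q => ty b = 2) = univ.image (fun s : Fin q => some (true, s)) := by
    ext b
    rw [mem_filter, mem_image]
    rcases b with _ | ⟨t, s⟩
    · simp [ty]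
    · cases t <;> simp [ty]
  rw [this, sum_image]
  · refine sum_congr rfl fun s _ => ?_
    unfold X
    rw [sq, single_mul_single, hc_some, hc_some]
    simp only [if_true, Bool.false_eq_true, if_false]
    congr 1
    push_cast
    ring
  · intro s _ s' _ h
    simpa using h

/-- exponent of `L_j` in `∏_{S} L * ∏_{S'ᶜ} L` -/
def ex {d : ℕ} (S S' : Finset (Fin d)) (j : Fin d) : ℕ :=
  (if j ∈ S then 1 else 0) + (if j ∈ S' then 0 else 1)

theorem term_eq {d q : ℕ} (S S' : Finset (Fin d)) :
    (∏ j ∈ S, L d q j) * (∏ j ∈ S'ᶜ, L d q j) =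
      ∑ a : Fin d → O q, if (∀ j, ty (a j) = ex S S' j) then single (H a) 1 else 0 := by
  classical
  have h1 : (∏ j ∈ S, L d q j) * (∏ j ∈ S'ᶜ, L d q j) =
      ∏ j, ∑ b ∈ univ.filter (fun b : O q => ty b = ex S S' j), X d q j b := by
    have e1 : ∏ j ∈ S, L d q j = ∏ j, if j ∈ S then L d q j else 1 := by
      rw [prod_ite_mem, univ_inter]
    have e2 : ∏ j ∈ S'ᶜ, L d q j = ∏ j, if j ∈ S' then 1 else L d q j := by
      have e3 : ∀ j, (if j ∈ S' then 1 else L d q j) = if j ∈ S'ᶜ then L d q j else 1 := by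
        intro j
        by_cases hj : j ∈ S' <;> simp [hj]
      simp only [e3]
      rw [prod_ite_mem, univ_inter]
    rw [e1, e2, ← prod_mul_distrib]
    refine prod_congr rfl fun j _ => ?_
    unfold ex
    by_cases hj : j ∈ S <;> by_cases hj' : j ∈ S'
    · simp only [hj, hj', if_true, mul_one, add_zero]
      exact (sum_ty_one j).symm
    · simp only [hj, hj', if_true, if_false]
      rw [← sq]
      exact (sum_ty_two j).symm
    · simp only [hj, hj', if_true, if_false, mul_one, add_zero]
      exact (sum_ty_zero j).symm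
    · simp only [hj, hj', if_false, one_mul, zero_add]
      exact (sum_ty_one j).symm
  rw [h1, Finset.prod_univ_sum]
  simp only [prod_X]
  rw [← sum_filter]
  refine sum_congr ?_ fun _ _ => rfl
  ext a
  rw [Fintype.mem_piFinset, mem_filter]
  simp only [mem_filter, mem_univ, true_and]

/-! ### The product -/

variable {ι κ : Type} {d m q : ℕ}

/-- index set of the coordinates -/
abbrev TT (d m : ℕ) : Type := {S : Finset (Fin d) // S.card = m}

/-- the rows -/
noncomputable def PP (q : ℕ) (xv : ι → TT d m → ZMod 2) (i : ι) : R2 :=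
  ∑ S : TT d m, xv i S • ∏ j ∈ S.1, L d q j

/-- the types -/
noncomputable def QQ (q : ℕ) (yv : κ → TT d m → ZMod 2) (k : κ) : R2 :=
  ∑ S : TT d m, yv k S • ∏ j ∈ S.1ᶜ, L d q j

/-- coefficient of a monomial in `P_i Q_k` -/
def cf (xv : ι → TT d m → ZMod 2) (yv : κ → TT d m → ZMod 2) (i : ι) (k : κ) (a : Fin d → O q) :
    ZMod 2 :=
  ∑ S : TT d m, ∑ S' : TT d m,
    if (∀ j, ty (a j) = ex S.1 S'.1 j) then xv i S * yv k S' else 0

theorem PP_mul_QQ (xv : ι → TT d m → ZMod 2) (yv : κ → TT d m → ZMod 2) (i : ι) (k : κ) :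
    PP q xv i * QQ q yv k = ∑ a : Fin d → O q, cf xv yv i k a • (single (H a) 1 : R2) := by
  unfold PP QQ cf
  rw [sum_mul_sum]
  simp only [smul_mul_smul_comm, term_eq, smul_sum, sum_smul]
  rw [Finset.sum_comm (s := (univ : Finset (Fin d → O q)))]
  refine sum_congr rfl fun S _ => ?_
  rw [Finset.sum_comm (s := (univ : Finset (Fin d → O q)))]
  refine sum_congr rfl fun S' _ => sum_congr rfl fun a _ => ?_
  split_ifs
  · rfl
  · rw [smul_zero, zero_smul]

theorem coeff_PP_mul_QQ (xv : ι → TT d m → ZMod 2) (yv : κ → TT d m → ZMod 2) (i : ι) (k : κ)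
    (a : Fin d → O q) : (PP q xv i * QQ q yv k).coeff (H a) = cf xv yv i k a := by
  classical
  rw [PP_mul_QQ, coeff_sum, Finsupp.finsetSum_apply, Finset.sum_eq_single a]
  · rw [coeff_smul, coeff_single, Finsupp.smul_apply, Finsupp.single_eq_same, smul_eq_mul, mul_one]
  · intro b _ hb
    rw [coeff_smul, coeff_single, Finsupp.smul_apply,
      Finsupp.single_eq_of_ne (fun h => hb (H_inj h).symm), smul_zero]
  · intro h
    exact absurd (mem_univ a) h

/-- The support of the product. -/
theorem mem_support_iff (xv : ι → TT d m → ZMod 2) (yv : κ → TT d m → ZMod 2) (i : ι) (k : κ)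
    (h : ℤ) : h ∈ (PP q xv i * QQ q yv k).coeff.support ↔
      ∃ a : Fin d → O q, cf xv yv i k a ≠ 0 ∧ H a = h := by
  classical
  rw [Finsupp.mem_support_iff]
  constructor
  · intro hne
    rw [PP_mul_QQ, coeff_sum, Finsupp.finsetSum_apply] at hne
    obtain ⟨a, _, ha⟩ := exists_ne_zero_of_sum_ne_zero hne
    rw [coeff_smul, coeff_single, Finsupp.smul_apply] at ha
    refine ⟨a, fun h0 => ha (by rw [h0, zero_smul]), ?_⟩
    by_contra hcon
    exact ha (by rw [Finsupp.single_eq_of_ne (fun h => hcon h.symm), smul_zero])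
  · rintro ⟨a, ha, rfl⟩
    rwa [coeff_PP_mul_QQ]

/-- main monomials: every coordinate has degree one -/
def Main (a : Fin d → O q) : Prop := ∀ j, ty (a j) = 1

/-- low monomials: some coordinate has degree zero -/
def Low (a : Fin d → O q) : Prop := ∃ j, a j = none

theorem cf_main {xv : ι → TT d m → ZMod 2} {yv : κ → TT d m → ZMod 2} {i : ι} {k : κ}
    {a : Fin d → O q} (ha : Main a) : cf xv yv i k a = ∑ S, xv i S * yv k S := by
  classical
  unfold cf
  refine sum_congr rfl fun S _ => ?_
  rw [Finset.sum_eq_single S]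
  · rw [if_pos]
    intro j
    rw [ha j]
    unfold ex
    by_cases hj : j ∈ S.1 <;> simp [hj]
  · intro S' _ hne
    rw [if_neg]
    intro hcon
    apply hne
    apply Subtype.ext
    ext j
    have := hcon j
    rw [ha j] at this
    unfold ex at this
    by_cases hj : j ∈ S.1 <;> by_cases hj' : j ∈ S'.1 <;> simp_all
  · intro h
    exact absurd (mem_univ _) h

theorem main_or_low {xv : ι → TT d m → ZMod 2} {yv : κ → TT d m → ZMod 2} {i : ι} {k : κ}
    {a : Fin d → O q} (ha : cf xv yv i k a ≠ 0) : Main a ∨ Low a := by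
  classical
  unfold cf at ha
  obtain ⟨S, _, h1⟩ := exists_ne_zero_of_sum_ne_zero ha
  obtain ⟨S', _, h2⟩ := exists_ne_zero_of_sum_ne_zero h1
  have h3 : ∀ j, ty (a j) = ex S.1 S'.1 j := by
    by_contra hcon
    exact h2 (if_neg hcon)
  by_cases hS : S'.1 ⊆ S.1
  · left
    have : S'.1 = S.1 := eq_of_subset_of_card_le hS (by rw [S.2, S'.2])
    intro j
    rw [h3 j, this]
    unfold ex
    by_cases hj : j ∈ S.1 <;> simp [hj]
  · right
    obtain ⟨j, hj', hj⟩ := not_subset.1 hS
    refine ⟨j, ?_⟩
    have := h3 j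
    unfold ex at this
    rw [if_neg hj, if_pos hj', add_zero] at this
    rcases h4 : a j with _ | ⟨t, s⟩
    · rfl
    · rw [h4] at this
      cases t <;> simp [ty] at this

/-! ### Augmentation -/

/-- augmentation as an algebra homomorphism -/
noncomputable def augH : R2 →ₐ[ZMod 2] ZMod 2 := AddMonoidAlgebra.lift (ZMod 2) (ZMod 2) ℤ 1

theorem augH_apply (f : R2) : augH f = f.coeff.sum fun _ a => a := by
  unfold augH
  rw [AddMonoidAlgebra.lift_apply]
  simp

theorem augH_L (j : Fin d) : augH (L d q j) = (q : ZMod 2) := by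
  unfold L X
  rw [map_sum]
  simp only [augH_apply, coeff_single, Finsupp.sum_single_index, sum_const, card_univ,
    Fintype.card_fin, nsmul_eq_mul, mul_one]

theorem augH_QQ (hq : Odd q) (yv : κ → TT d m → ZMod 2) (k : κ) :
    augH (QQ q yv k) = ∑ S, yv k S := by
  unfold QQ
  rw [map_sum]
  refine sum_congr rfl fun S _ => ?_
  rw [map_smul, map_prod]
  simp only [augH_L]
  have : (q : ZMod 2) = 1 := by
    rw [ZMod.natCast_eq_one_iff_odd]
    exact hq
  rw [this, prod_const_one, smul_eq_mul, mul_one]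

end Vale.Agent.P201.Z.PA
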