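import Mathlib

/-!
P201, part A, block A1: rank factorisation over `F_2` of the incidence matrix of the affine plane of
order `2 ^ e`, and incidence counts.
-/

namespace Vale.Agent.P201.Z

open Finset

/-- A matrix over a field `k` that factors through `ρ` over an extension factors over `k` through
every larger index set `T`, with a spare coordinate. -/
theorem factor_of_ext {k F : Type} [Field k] [Field F] [Algebra k F] {ι κ ρ T : Type}
    [Fintype κ] [Fintype ρ] [Fintype T] (A : ι → κ → k) (f : ι → ρ → F) (g : κ → ρ → F)
    (h : ∀ i j, algebraMap k F (A i j) = ∑ r, f i r * g j r)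
    (hT : Fintype.card ρ < Fintype.card T) :
    ∃ (xv : ι → T → k) (yv : κ → T → k) (t0 : T), (∀ i, xv i t0 = 0) ∧
      ∀ i j, ∑ r, xv i r * yv j r = A i j := by
  classical
  obtain ⟨d, v, hv, hspan, hli⟩ : ∃ (d : ℕ) (v : Fin d → κ → k), (∀ i, v i ∈ Set.range A) ∧
      Submodule.span k (Set.range v) = Submodule.span k (Set.range A) ∧ LinearIndependent k v :=
    ⟨_, Submodule.exists_fun_fin_finrank_span_eq k (Set.range A)⟩
  -- the vectors stay independent over `F`
  have hliF : LinearIndependent F (fun i => (algebraMap k F) ∘ v i) :=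
    linearIndependent_algebraMap_comp_iff.mpr hli
  have hmem : ∀ i, ((algebraMap k F) ∘ v i) ∈
      Submodule.span F (Set.range (fun r : ρ => fun j : κ => g j r)) := by
    intro i
    obtain ⟨a, ha⟩ := hv i
    have : ((algebraMap k F) ∘ v i) = ∑ r, f a r • (fun j : κ => g j r) := by
      funext j
      simp only [Function.comp_apply, ← ha, h, Finset.sum_apply, Pi.smul_apply, smul_eq_mul]
    rw [this]
    exact Submodule.sum_mem _ fun r _ => Submodule.smul_mem _ _
      (Submodule.subset_span ⟨r, rfl⟩)
  have hdle : d ≤ Fintype.card ρ := by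
    have h1 : LinearIndependent F (fun i : Fin d =>
        (⟨(algebraMap k F) ∘ v i, hmem i⟩ :
          Submodule.span F (Set.range (fun r : ρ => fun j : κ => g j r)))) := by
      apply LinearIndependent.of_comp (Submodule.subtype _)
      exact hliF
    have h2 := h1.fintype_card_le_finrank
    have h3 : Module.finrank F (Submodule.span F (Set.range (fun r : ρ => fun j : κ => g j r))) ≤
        Fintype.card ρ := finrank_range_le_card _
    simpa using h2.trans h3
  -- injection
  have hdT : Fintype.card (Fin d) < Fintype.card T := by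
    simpa using lt_of_le_of_lt hdle hT
  obtain ⟨emb⟩ : Nonempty (Fin d ↪ T) := Function.Embedding.nonempty_of_card_le hdT.le
  have hns : ∃ t0, t0 ∉ Set.range emb := by
    by_contra hcon
    push Not at hcon
    have hsurj : Function.Surjective emb := hcon
    have := Fintype.card_le_of_surjective _ hsurj
    omega
  obtain ⟨t0, ht0⟩ := hns
  have hc : ∀ i, ∃ c : Fin d → k, ∑ j, c j • v j = A i := by
    intro i
    have : A i ∈ Submodule.span k (Set.range v) := by
      rw [hspan]
      exact Submodule.subset_span ⟨i, rfl⟩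
    exact (Submodule.mem_span_range_iff_exists_fun k).1 this
  choose c hc using hc
  refine ⟨fun i => Function.extend emb (c i) 0, fun j => Function.extend emb (fun s => v s j) 0,
    t0, fun i => ?_, fun i j => ?_⟩
  · beta_reduce
    rw [Function.extend_apply' _ _ _ (by simpa using ht0)]
    rfl
  · have : A i j = ∑ s, c i s * v s j := by
      rw [← hc i]
      simp [Finset.sum_apply]
    rw [this]
    symm
    refine Fintype.sum_of_injective emb emb.injective _ _ (fun t ht => ?_) fun s => ?_
    · beta_reduce
      rw [Function.extend_apply' _ _ _ (by simpa using ht)]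
      simp
    · beta_reduce
      rw [emb.injective.extend_apply, emb.injective.extend_apply]

section plane

variable {F : Type} [Field F] [Fintype F] [DecidableEq F]

/-- incidence of the affine plane: point `i`, line `k` -/
def inc (i k : F × F) : Prop := i.2 = k.1 * i.1 + k.2

instance (i k : F × F) : Decidable (inc i k) := by unfold inc; infer_instance

theorem card_inc (i : F × F) :
    (univ.filter (fun k : F × F => inc i k)).card = Fintype.card F := by
  have : (univ.filter (fun k : F × F => inc i k)) =
      univ.image (fun a : F => (a, i.2 - a * i.1)) := by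
    ext ⟨a, b⟩
    rw [mem_filter, mem_image]
    simp only [mem_univ, true_and, Prod.mk.injEq]
    constructor
    · intro h
      unfold inc at h
      exact ⟨a, rfl, by rw [h]; ring⟩
    · rintro ⟨a', rfl, rfl⟩
      unfold inc
      ring
  rw [this, card_image_of_injective _ (fun a b h => (Prod.mk.inj h).1), card_univ]

theorem card_inc_inc_le {i i' : F × F} (h : i ≠ i') :
    (univ.filter (fun k : F × F => inc i k ∧ inc i' k)).card ≤ 1 := by
  rw [card_le_one]
  rintro ⟨a, b⟩ h1 ⟨a', b'⟩ h2
  rw [mem_filter] at h1 h2
  obtain ⟨-, h1, h1'⟩ := h1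
  obtain ⟨-, h2, h2'⟩ := h2
  unfold inc at h1 h1' h2 h2'
  simp only at h1 h1' h2 h2'
  have hx : i.1 ≠ i'.1 := by
    intro hx
    apply h
    ext
    · exact hx
    · rw [h1, h1', hx]
  have e : (a - a') * (i.1 - i'.1) = 0 := by
    linear_combination h1' - h1 + h2 - h2'
  have ea : a = a' := by
    rcases mul_eq_zero.1 e with h | h
    · exact sub_eq_zero.1 h
    · exact absurd (sub_eq_zero.1 h) hx
  subst ea
  have eb : b = b' := by linear_combination h2 - h1
  rw [eb]

/-- number of incident quadruples -/
theorem sum_inc_sq_le : (∑ i : F × F, ∑ i' : F × F,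
    (univ.filter (fun k : F × F => inc i k ∧ inc i' k)).card ^ 2) ≤ 2 * Fintype.card F ^ 4 := by
  classical
  have key : ∀ i i' : F × F, (univ.filter (fun k : F × F => inc i k ∧ inc i' k)).card ^ 2 ≤
      (if i = i' then Fintype.card F ^ 2 else 0) + 1 := by
    intro i i'
    split_ifs with h
    · subst h
      simp only [and_self]
      rw [card_inc]
      omega
    · have := card_inc_inc_le h
      interval_cases (univ.filter (fun k : F × F => inc i k ∧ inc i' k)).card <;> simp
  calc _ ≤ ∑ i : F × F, ∑ i' : F × F, ((if i = i' then Fintype.card F ^ 2 else 0) + 1) :=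
        sum_le_sum fun i _ => sum_le_sum fun i' _ => key i i'
    _ = 2 * Fintype.card F ^ 4 := by
        simp only [sum_add_distrib, sum_ite_eq, mem_univ, if_true, sum_const, card_univ,
          Fintype.card_prod, smul_eq_mul, mul_one]
        ring

end plane

/-- Factorisation of the incidence matrix over `F` itself. -/
theorem inc_factor {F : Type} [Field F] [Fintype F] [DecidableEq F] [CharP F 2] {e : ℕ}
    (hF : Fintype.card F = 2 ^ e) : ∃ (f g : F × F → Option (Fin e → Fin 3) → F),
      ∀ i k, (if inc i k then (1 : F) else 0) = ∑ r, f i r * g k r := by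
  have : Fact (Nat.Prime 2) := ⟨Nat.prime_two⟩
  let u : F × F → Fin 3 → ℕ → F := fun i j s => ![i.2 ^ 2 ^ s, -i.1 ^ 2 ^ s, -1] j
  let w : F × F → Fin 3 → ℕ → F := fun k j s => ![1, k.1 ^ 2 ^ s, k.2 ^ 2 ^ s] j
  refine ⟨fun i r => r.elim 1 (fun c => - ∏ s : Fin e, u i (c s) s),
    fun k r => r.elim 1 (fun c => ∏ s : Fin e, w k (c s) s), fun i k => ?_⟩
  have h1 : ∀ z : F, (if z = 0 then (1 : F) else 0) = 1 - z ^ (2 ^ e - 1) := by
    intro z
    split_ifs with hz
    · subst hz
      have h2 : 2 ^ e - 1 ≠ 0 := by
        have : 1 < Fintype.card F := Fintype.one_lt_card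
        omega
      rw [zero_pow h2, sub_zero]
    · rw [← hF, FiniteField.pow_card_sub_one_eq_one z hz, sub_self]
  have h2 : ∀ z : F, z ^ (2 ^ e - 1) = ∏ s : Fin e, z ^ 2 ^ (s : ℕ) := by
    intro z
    rw [Finset.prod_pow_eq_pow_sum, Fin.sum_univ_eq_sum_range (fun s => 2 ^ s) e,
      Nat.geomSum_eq le_rfl]
    simp
  have h3 : (if inc i k then (1 : F) else 0) = if i.2 - k.1 * i.1 - k.2 = 0 then (1 : F) else 0 := by
    congr 1
    rw [eq_iff_iff, inc]
    constructor
    · intro h
      rw [h]; ring
    · intro h
      linear_combination h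
  rw [h3, h1, h2, Fintype.sum_option]
  have h4 : ∀ s : Fin e, (i.2 - k.1 * i.1 - k.2) ^ 2 ^ (s : ℕ) = ∑ j : Fin 3, u i j s * w k j s := by
    intro s
    rw [sub_pow_char_pow, sub_pow_char_pow, mul_pow]
    simp only [u, w, Fin.sum_univ_three, Matrix.cons_val_zero, Matrix.cons_val_one,
      Matrix.cons_val_two, Matrix.head_cons, Matrix.tail_cons]
    ring
  rw [prod_congr rfl fun s _ => h4 s, Finset.prod_univ_sum, Fintype.piFinset_univ]
  simp only [Option.elim_none, Option.elim_some, mul_one, neg_mul, sum_neg_distrib,
    Finset.prod_mul_distrib]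
  ring

/-- BLOCK A1: the incidence matrix of the affine plane of order `2 ^ e` over `F_2`, indexed through
any set `T` with more than `3 ^ e + 1` elements, with a spare coordinate. -/
theorem exists_factor {e : ℕ} (he : e ≠ 0) {T : Type} [Fintype T] (hT : 3 ^ e + 1 < Fintype.card T) :
    ∃ (F : Type) (_ : Field F) (_ : Fintype F) (_ : DecidableEq F)
      (xv yv : F × F → T → ZMod 2) (t0 : T), Fintype.card F = 2 ^ e ∧ (∀ i, xv i t0 = 0) ∧
      ∀ i k, ∑ r, xv i r * yv k r = if inc i k then 1 else 0 := by
  classical
  have : Fact (Nat.Prime 2) := ⟨Nat.prime_two⟩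
  let F := GaloisField 2 e
  have : Finite F := inferInstance
  let _ : Fintype F := Fintype.ofFinite F
  have hF : Fintype.card F = 2 ^ e := by
    rw [← Nat.card_eq_fintype_card]
    exact GaloisField.card 2 e he
  obtain ⟨f, g, hfg⟩ := inc_factor hF
  have hcard : Fintype.card (Option (Fin e → Fin 3)) < Fintype.card T := by
    rw [Fintype.card_option, Fintype.card_fun, Fintype.card_fin, Fintype.card_fin]
    exact hT
  obtain ⟨xv, yv, t0, h0, h⟩ := factor_of_ext (k := ZMod 2) (F := F) (T := T)
    (fun i k : F × F => if inc i k then 1 else 0) f g (fun i k => by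
      rw [← hfg]; split_ifs <;> simp) hcard
  exact ⟨F, inferInstance, inferInstance, inferInstance, xv, yv, t0, hF, h0, h⟩

end Vale.Agent.P201.Z
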