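import Vale.Agent.P201.Z.Defs
import Vale.Agent.P201.Z.A.Rank
import Vale.Agent.P201.Z.A.Poly

/-!
P201 / P194, part A with parameters: for every `Λ` there is a pattern with small 4-cycle density and
short `P_i`, `Q_k`.
-/

namespace Vale.Agent.P201.Z.PA.Lam

open Finset AddMonoidAlgebra Vale.Agent.P201.Z.PA

/-! ### One coordinate -/

/-- quadruples of coordinates -/
abbrev O4 (q : ℕ) : Type := (O q × O q) × (O q × O q)

/-- the four term relation -/
def Rel4 {q : ℕ} (x : O4 q) : Prop := vv x.1.2 + vv x.2.1 = vv x.1.1 + vv x.2.2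

/-- the coordinates with the variable of `b` -/
def sset {q : ℕ} : O q → Finset (O q)
  | none => {none}
  | some (_, s) => {none, some (false, s), some (true, s)}

theorem none_mem_sset {q : ℕ} (b : O q) : none ∈ sset b := by
  rcases b with _ | ⟨t, s⟩ <;> simp [sset]

theorem card_sset {q : ℕ} (b : O q) : (sset b).card ≤ 3 := by
  rcases b with _ | ⟨t, s⟩
  · simp [sset]
  · exact card_le_three

theorem vv_pos {q : ℕ} {b : O q} {s : Fin q} (h : vv b s ≠ 0) : ∃ t, b = some (t, s) := by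
  rcases b with _ | ⟨t, s'⟩
  · simp [vv] at h
  · by_cases hs : s = s'
    · exact ⟨t, by rw [hs]⟩
    · simp [vv, hs] at h

theorem mem_sset_of_le {q : ℕ} {b b1 b4 : O q} (h : vv b ≤ vv b1 + vv b4) :
    b ∈ sset b1 ∪ sset b4 := by
  rcases b with _ | ⟨t, s⟩
  · exact mem_union_left _ (none_mem_sset _)
  · have h1 : vv (some (t, s) : O q) s ≤ vv b1 s + vv b4 s := h s
    have h2 : 1 ≤ vv (some (t, s) : O q) s := by cases t <;> simp [vv]
    have h0 : 1 ≤ vv b1 s + vv b4 s := h2.trans h1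
    rw [mem_union]
    rcases Nat.eq_zero_or_pos (vv b1 s) with h3 | h3
    · right
      have h4 : vv b4 s ≠ 0 := by omega
      obtain ⟨t', rfl⟩ := vv_pos h4
      cases t <;> simp [sset]
    · left
      have h4 : vv b1 s ≠ 0 := by omega
      obtain ⟨t', rfl⟩ := vv_pos h4
      cases t <;> simp [sset]

theorem card_O (q : ℕ) : Fintype.card (O q) = 2 * q + 1 := by
  simp [O]

/-- a set of related quadruples is bounded through the first and the last entry -/
theorem card_le_of {q c : ℕ} (A : Finset (O4 q)) (hA : ∀ x ∈ A, Rel4 x) (E : Finset (O q × O q))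
    (hE : ∀ x ∈ A, (x.1.1, x.2.2) ∈ E)
    (hc : ∀ e ∈ E, (sset e.1 ∪ sset e.2).card ≤ c) : A.card ≤ c * E.card := by
  classical
  refine card_le_mul_card_image_of_maps_to (f := fun x : O4 q => (x.1.1, x.2.2)) hE c ?_
  intro e he
  refine le_trans (card_le_card_of_injOn (fun x => x.1.2) (t := sset e.1 ∪ sset e.2) ?_ ?_) (hc e he)
  · intro x hx
    rw [mem_coe, mem_filter] at hx
    obtain ⟨hx1, hx2⟩ := hx
    have h1 := hA x hx1
    unfold Rel4 at h1
    rw [← hx2]
    have : vv x.1.2 ≤ vv x.1.1 + vv x.2.2 := by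
      rw [← h1]
      exact le_add_of_nonneg_right (zero_le)
    exact mem_sset_of_le this
  · intro x hx y hy hxy
    rw [mem_coe, mem_filter] at hx hy
    obtain ⟨hx1, hx2⟩ := hx
    obtain ⟨hy1, hy2⟩ := hy
    have h1 := hA x hx1
    have h2 := hA y hy1
    unfold Rel4 at h1 h2
    have e1 : x.1.1 = y.1.1 := by
      have := hx2.trans hy2.symm
      exact (Prod.mk.inj this).1
    have e2 : x.2.2 = y.2.2 := by
      have := hx2.trans hy2.symm
      exact (Prod.mk.inj this).2
    simp only at hxy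
    rw [hxy, e1, e2, ← h2] at h1
    have e3 : x.2.1 = y.2.1 := vv_inj (add_left_cancel h1)
    exact Prod.ext (Prod.ext e1 hxy) (Prod.ext e3 e2)

instance {q : ℕ} : DecidablePred (Rel4 (q := q)) := fun x => by unfold Rel4; infer_instance

/-- all related quadruples -/
def ZA (q : ℕ) : Finset (O4 q) := univ.filter Rel4

/-- related quadruples with an empty entry -/
def ZN (q : ℕ) : Finset (O4 q) := univ.filter
  (fun x => Rel4 x ∧ (x.1.1 = none ∨ x.1.2 = none ∨ x.2.1 = none ∨ x.2.2 = none))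

/-- related quadruples of type one -/
def ZO (q : ℕ) : Finset (O4 q) := univ.filter
  (fun x => Rel4 x ∧ ty x.1.1 = 1 ∧ ty x.1.2 = 1 ∧ ty x.2.1 = 1 ∧ ty x.2.2 = 1)

theorem card_ZA {q : ℕ} (hq : 1 ≤ q) : (ZA q).card ≤ 54 * q ^ 2 := by
  have h1 := card_le_of (ZA q) (fun x hx => (mem_filter.1 hx).2) univ (fun _ _ => mem_univ _)
    (c := 6) (fun e _ => (card_union_le _ _).trans (by
      have := card_sset e.1
      have := card_sset e.2
      omega))
  rw [card_univ, Fintype.card_prod, card_O] at h1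
  nlinarith

theorem card_ZN_first {q : ℕ} (hq : 1 ≤ q) (A : Finset (O4 q)) (hA : ∀ x ∈ A, Rel4 x)
    (h : ∀ x ∈ A, x.1.1 = none) : A.card ≤ 12 * q := by
  classical
  have h1 := card_le_of A hA (univ.image (fun b : O q => (none, b)))
    (fun x hx => by
      rw [mem_image]
      exact ⟨x.2.2, mem_univ _, by rw [h x hx]⟩) (c := 4) (fun e he => by
        rw [mem_image] at he
        obtain ⟨b, -, rfl⟩ := he
        refine (card_union_le _ _).trans ?_
        have h5 := card_sset b
        have h6 : (sset (none : O q)).card = 1 := rfl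
        change (sset (none : O q)).card + (sset b).card ≤ 4
        omega)
  have h2 : (univ.image (fun b : O q => ((none : O q), b))).card ≤ 2 * q + 1 := by
    refine card_image_le.trans ?_
    rw [card_univ, card_O]
  nlinarith

/-- symmetries of the relation -/
def sw1 {q : ℕ} (x : O4 q) : O4 q := ((x.1.2, x.1.1), (x.2.2, x.2.1))

def sw2 {q : ℕ} (x : O4 q) : O4 q := ((x.2.1, x.2.2), (x.1.1, x.1.2))

theorem sw1_inj {q : ℕ} : Function.Injective (sw1 (q := q)) := by
  rintro ⟨⟨a, b⟩, c, d⟩ ⟨⟨a', b'⟩, c', d'⟩ h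
  simp only [sw1, Prod.mk.injEq] at h ⊢
  tauto

theorem sw2_inj {q : ℕ} : Function.Injective (sw2 (q := q)) := by
  rintro ⟨⟨a, b⟩, c, d⟩ ⟨⟨a', b'⟩, c', d'⟩ h
  simp only [sw2, Prod.mk.injEq] at h ⊢
  tauto

theorem rel_sw1 {q : ℕ} {x : O4 q} (h : Rel4 x) : Rel4 (sw1 x) := by
  unfold Rel4 at h ⊢
  simp only [sw1]
  exact h.symm

theorem rel_sw2 {q : ℕ} {x : O4 q} (h : Rel4 x) : Rel4 (sw2 x) := by
  unfold Rel4 at h ⊢
  simp only [sw2]
  rw [add_comm, ← h, add_comm]

theorem card_ZN {q : ℕ} (hq : 1 ≤ q) : (ZN q).card ≤ 48 * q := by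
  classical
  have key : ∀ (f : O4 q → O4 q), Function.Injective f → (∀ x, Rel4 x → Rel4 (f x)) →
      ((ZN q).filter (fun x => (f x).1.1 = none)).card ≤ 12 * q := by
    intro f hf hr
    rw [← card_image_of_injective _ hf]
    refine card_ZN_first hq _ (fun x hx => ?_) (fun x hx => ?_)
    · rw [mem_image] at hx
      obtain ⟨y, hy, rfl⟩ := hx
      exact hr y (mem_filter.1 (mem_filter.1 hy).1).2.1
    · rw [mem_image] at hx
      obtain ⟨y, hy, rfl⟩ := hx
      exact (mem_filter.1 hy).2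
  have h1 := key id Function.injective_id (fun _ h => h)
  have h2 := key sw1 sw1_inj (fun _ h => rel_sw1 h)
  have h3 := key sw2 sw2_inj (fun _ h => rel_sw2 h)
  have h4 := key (sw1 ∘ sw2) (sw1_inj.comp sw2_inj) (fun _ h => rel_sw1 (rel_sw2 h))
  have hsub : ZN q ⊆ ((ZN q).filter (fun x => (id x).1.1 = none) ∪
      (ZN q).filter (fun x => (sw1 x).1.1 = none)) ∪
      ((ZN q).filter (fun x => (sw2 x).1.1 = none) ∪
      (ZN q).filter (fun x => ((sw1 ∘ sw2) x).1.1 = none)) := by
    intro x hx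
    have h5 := (mem_filter.1 hx).2.2
    rcases h5 with h5 | h5 | h5 | h5
    · exact mem_union_left _ (mem_union_left _ (mem_filter.2 ⟨hx, h5⟩))
    · exact mem_union_left _ (mem_union_right _ (mem_filter.2 ⟨hx, h5⟩))
    · exact mem_union_right _ (mem_union_left _ (mem_filter.2 ⟨hx, h5⟩))
    · exact mem_union_right _ (mem_union_right _ (mem_filter.2 ⟨hx, h5⟩))
  refine (card_le_card hsub).trans ((card_union_le _ _).trans
    ((add_le_add ((card_union_le _ _).trans (add_le_add h1 h2))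
      ((card_union_le _ _).trans (add_le_add h3 h4))).trans ?_))
  omega

theorem ty_one {q : ℕ} {b : O q} (h : ty b = 1) : ∃ s, b = some (false, s) := by
  rcases b with _ | ⟨t, s⟩
  · simp [ty] at h
  · cases t
    · exact ⟨s, rfl⟩
    · simp [ty] at h

theorem card_ZO (q : ℕ) : (ZO q).card ≤ 2 * q ^ 2 := by
  classical
  have h1 : (ZO q).card ≤ 2 * ((univ : Finset (Fin q × Fin q)).image
      (fun p => ((some (false, p.1) : O q), (some (false, p.2) : O q)))).card := by
    refine card_le_mul_card_image_of_maps_to (f := fun x : O4 q => (x.1.1, x.2.2)) ?_ 2 ?_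
    · intro x hx
      obtain ⟨h1, h2, h3, h4, h5⟩ := (mem_filter.1 hx).2
      obtain ⟨s, hs⟩ := ty_one h2
      obtain ⟨s', hs'⟩ := ty_one h5
      rw [mem_image]
      exact ⟨(s, s'), mem_univ _, by rw [hs, hs']⟩
    · intro e he
      rw [mem_image] at he
      obtain ⟨⟨s, s'⟩, -, rfl⟩ := he
      refine le_trans (card_le_card_of_injOn (fun x => x.1.2)
        (t := {(some (false, s) : O q), (some (false, s') : O q)}) ?_ ?_) card_le_two
      · intro x hx
        rw [mem_coe, mem_filter] at hx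
        obtain ⟨hx1, hx2⟩ := hx
        obtain ⟨h1, h2, h3, h4, h5⟩ := (mem_filter.1 hx1).2
        have e1 := (Prod.mk.inj hx2).1
        have e2 := (Prod.mk.inj hx2).2
        have h6 : x.1.2 ∈ sset x.1.1 ∪ sset x.2.2 := by
          refine mem_sset_of_le ?_
          unfold Rel4 at h1
          rw [← h1]
          exact le_add_of_nonneg_right (zero_le)
        obtain ⟨s2, hs2⟩ := ty_one h3
        rw [e1, e2, hs2] at h6
        simp only [hs2]
        simp only [coe_insert, coe_singleton, Set.mem_insert_iff, Set.mem_singleton_iff]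
        have h7 : s2 = s' ∨ s2 = s := by simpa [sset] using h6
        rcases h7 with h7 | h7
        · right; rw [h7]
        · left; rw [h7]
      · intro x hx y hy hxy
        rw [mem_coe, mem_filter] at hx hy
        obtain ⟨hx1, hx2⟩ := hx
        obtain ⟨hy1, hy2⟩ := hy
        have h1 := (mem_filter.1 hx1).2.1
        have h2 := (mem_filter.1 hy1).2.1
        unfold Rel4 at h1 h2
        have e1 : x.1.1 = y.1.1 := (Prod.mk.inj (hx2.trans hy2.symm)).1
        have e2 : x.2.2 = y.2.2 := (Prod.mk.inj (hx2.trans hy2.symm)).2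
        simp only at hxy
        rw [hxy, e1, e2, ← h2] at h1
        have e3 : x.2.1 = y.2.1 := vv_inj (add_left_cancel h1)
        exact Prod.ext (Prod.ext e1 hxy) (Prod.ext e3 e2)
  refine h1.trans (Nat.mul_le_mul_left _ (card_image_le.trans ?_))
  rw [card_univ, Fintype.card_prod, Fintype.card_fin, sq]

/-! ### Quadruples of monomials -/

/-- the set `N` consists of main monomials (allowed only if `p`) and low monomials -/
def Cov (d q : ℕ) (N : Finset ℤ) (p : Prop) : Prop :=
  ∀ h ∈ N, ∃ a : Fin d → O q, H a = h ∧ ((Main a ∧ p) ∨ Low a)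

theorem card_quad {d q : ℕ} (hq : 1 ≤ q) {N1 N2 N3 N4 : Finset ℤ} {p1 p2 p3 p4 : Prop}
    [Decidable (p1 ∧ p2 ∧ p3 ∧ p4)]
    (h1 : Cov d q N1 p1) (h2 : Cov d q N2 p2) (h3 : Cov d q N3 p3) (h4 : Cov d q N4 p4) :
    (((N1 ×ˢ N2) ×ˢ (N3 ×ˢ N4)).filter (fun x => x.1.2 - x.1.1 = x.2.2 - x.2.1)).card ≤
      (if p1 ∧ p2 ∧ p3 ∧ p4 then (2 * q ^ 2) ^ d else 0) +
        d * ((48 * q) * (54 * q ^ 2) ^ (d - 1)) := by
  classical
  let G : (Fin d → O4 q) → (ℤ × ℤ) × (ℤ × ℤ) := fun x =>
    ((H (fun j => (x j).1.1), H (fun j => (x j).1.2)),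
      (H (fun j => (x j).2.1), H (fun j => (x j).2.2)))
  let M : Finset (Fin d → O4 q) :=
    if p1 ∧ p2 ∧ p3 ∧ p4 then Fintype.piFinset (fun _ => ZO q) else ∅
  let Lw : Fin d → Finset (Fin d → O4 q) := fun j =>
    Fintype.piFinset (fun j' => if j' = j then ZN q else ZA q)
  have hsub : ((N1 ×ˢ N2) ×ˢ (N3 ×ˢ N4)).filter (fun x => x.1.2 - x.1.1 = x.2.2 - x.2.1) ⊆
      (M ∪ univ.biUnion Lw).image G := by
    rintro ⟨⟨k1, k2⟩, k3, k4⟩ hx
    rw [mem_filter, mem_product, mem_product, mem_product] at hx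
    obtain ⟨⟨⟨m1, m2⟩, m3, m4⟩, hr⟩ := hx
    obtain ⟨a1, e1, c1⟩ := h1 _ m1
    obtain ⟨a2, e2, c2⟩ := h2 _ m2
    obtain ⟨a3, e3, c3⟩ := h3 _ m3
    obtain ⟨a4, e4, c4⟩ := h4 _ m4
    simp only at e1 e2 e3 e4 hr
    have hrel : ∀ j, Rel4 (((a1 j, a2 j), (a3 j, a4 j)) : O4 q) := by
      intro j
      have := rel_of_H (a1 := a1) (a2 := a2) (a3 := a3) (a4 := a4) (by rw [e1, e2, e3, e4]; exact hr) j
      exact this
    rw [mem_image]
    refine ⟨fun j => ((a1 j, a2 j), (a3 j, a4 j)), ?_, ?_⟩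
    · have hlow : (Low a1 ∨ Low a2 ∨ Low a3 ∨ Low a4) →
          (fun j => ((a1 j, a2 j), (a3 j, a4 j))) ∈ M ∪ univ.biUnion Lw := by
        intro hl
        have : ∃ j, a1 j = none ∨ a2 j = none ∨ a3 j = none ∨ a4 j = none := by
          rcases hl with ⟨j, hj⟩ | ⟨j, hj⟩ | ⟨j, hj⟩ | ⟨j, hj⟩
          · exact ⟨j, Or.inl hj⟩
          · exact ⟨j, Or.inr (Or.inl hj)⟩
          · exact ⟨j, Or.inr (Or.inr (Or.inl hj))⟩
          · exact ⟨j, Or.inr (Or.inr (Or.inr hj))⟩
        obtain ⟨j, hj⟩ := this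
        refine mem_union_right _ (mem_biUnion.2 ⟨j, mem_univ _, ?_⟩)
        rw [Fintype.mem_piFinset]
        intro j'
        by_cases hjj : j' = j
        · subst hjj
          rw [if_pos rfl]
          exact mem_filter.2 ⟨mem_univ _, hrel _, hj⟩
        · rw [if_neg hjj]
          exact mem_filter.2 ⟨mem_univ _, hrel _⟩
      rcases c1 with ⟨n1, q1⟩ | c1
      swap
      · exact hlow (Or.inl c1)
      rcases c2 with ⟨n2, q2⟩ | c2
      swap
      · exact hlow (Or.inr (Or.inl c2))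
      rcases c3 with ⟨n3, q3⟩ | c3
      swap
      · exact hlow (Or.inr (Or.inr (Or.inl c3)))
      rcases c4 with ⟨n4, q4⟩ | c4
      swap
      · exact hlow (Or.inr (Or.inr (Or.inr c4)))
      refine mem_union_left _ ?_
      have hp : p1 ∧ p2 ∧ p3 ∧ p4 := ⟨q1, q2, q3, q4⟩
      simp only [M, if_pos hp]
      rw [Fintype.mem_piFinset]
      intro j
      exact mem_filter.2 ⟨mem_univ _, hrel _, n1 j, n2 j, n3 j, n4 j⟩
    · simp only [G]
      rw [e1, e2, e3, e4]
  refine (card_le_card hsub).trans (card_image_le.trans ((card_union_le _ _).trans (add_le_add ?_ ?_)))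
  · simp only [M]
    split_ifs with hp
    · rw [Fintype.card_piFinset, prod_const, card_univ, Fintype.card_fin]
      exact Nat.pow_le_pow_left (card_ZO q) d
    · simp
  · refine card_biUnion_le.trans ?_
    have hL : ∀ j : Fin d, (Lw j).card ≤ (48 * q) * (54 * q ^ 2) ^ (d - 1) := by
      intro j
      simp only [Lw]
      rw [Fintype.card_piFinset, ← mul_prod_erase univ _ (mem_univ j), if_pos rfl]
      refine Nat.mul_le_mul (card_ZN hq) ?_
      have : ∏ x ∈ univ.erase j, (if x = j then ZN q else ZA q).card =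
          ∏ x ∈ univ.erase j, (ZA q).card := by
        refine prod_congr rfl fun x hx => ?_
        rw [if_neg (ne_of_mem_erase hx)]
      rw [this, prod_const, card_erase_of_mem (mem_univ _), card_univ, Fintype.card_fin]
      exact Nat.pow_le_pow_left (card_ZA hq) _
    refine (sum_le_sum fun j _ => hL j).trans ?_
    rw [sum_const, card_univ, Fintype.card_fin, smul_eq_mul]

/-! ### Number of terms -/

/-- number of terms -/
noncomputable def ns (f : R2) : ℕ := f.coeff.support.card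

theorem ns_sum_le {σ : Type} (s : Finset σ) (f : σ → R2) : ns (∑ i ∈ s, f i) ≤ ∑ i ∈ s, ns (f i) := by
  classical
  induction s using Finset.induction_on with
  | empty => simp [ns]
  | insert i s hi ih =>
    rw [sum_insert hi, sum_insert hi]
    refine le_trans ?_ (Nat.add_le_add_left ih _)
    unfold ns
    rw [coeff_add]
    exact (card_le_card Finsupp.support_add).trans (card_union_le _ _)

theorem ns_smul_le (c : ZMod 2) (f : R2) : ns (c • f) ≤ ns f := by
  unfold ns
  rw [coeff_smul]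
  exact card_le_card Finsupp.support_smul

open scoped Pointwise in
theorem ns_mul_le (f g : R2) : ns (f * g) ≤ ns f * ns g := by
  classical
  exact (card_le_card (AddMonoidAlgebra.support_coeff_mul_subset f g)).trans card_add_le

theorem ns_one_le : ns (1 : R2) ≤ 1 := by
  unfold ns
  rw [AddMonoidAlgebra.one_def, coeff_single]
  exact (card_le_card Finsupp.support_single_subset).trans (by simp)

theorem ns_L {d q : ℕ} (j : Fin d) : ns (L d q j) ≤ q := by
  unfold L
  refine (ns_sum_le _ _).trans ?_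
  have : ∀ s : Fin q, ns (X d q j (some (false, s))) ≤ 1 := by
    intro s
    unfold ns X
    rw [coeff_single]
    exact (card_le_card Finsupp.support_single_subset).trans (by simp)
  refine (sum_le_sum fun s _ => this s).trans ?_
  simp

theorem ns_prod_L {d q : ℕ} (S : Finset (Fin d)) : ns (∏ j ∈ S, L d q j) ≤ q ^ S.card := by
  classical
  induction S using Finset.induction_on with
  | empty => simpa using ns_one_le
  | insert j S hj ih =>
    rw [prod_insert hj, card_insert_of_notMem hj, pow_succ, mul_comm (q ^ S.card)]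
    exact (ns_mul_le _ _).trans (Nat.mul_le_mul (ns_L j) ih)

theorem card_TT (d m : ℕ) : Fintype.card (TT d m) = d.choose m := by
  rw [Fintype.card_finset_len, Fintype.card_fin]

theorem ns_PP {ι : Type} {d m q : ℕ} (xv : ι → TT d m → ZMod 2) (i : ι) :
    ns (PP q xv i) ≤ d.choose m * q ^ m := by
  unfold PP
  refine (ns_sum_le _ _).trans ?_
  refine (sum_le_sum fun S _ => ((ns_smul_le _ _).trans (ns_prod_L S.1)).trans
    (le_of_eq (by rw [S.2]))).trans ?_
  rw [sum_const, card_univ, card_TT, smul_eq_mul]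

theorem ns_QQ {κ : Type} {d m q : ℕ} (yv : κ → TT d m → ZMod 2) (k : κ) :
    ns (QQ q yv k) ≤ d.choose m * q ^ (d - m) := by
  unfold QQ
  refine (ns_sum_le _ _).trans ?_
  refine (sum_le_sum fun S _ => ((ns_smul_le _ _).trans (ns_prod_L S.1ᶜ)).trans
    (le_of_eq (by rw [card_compl, S.2, Fintype.card_fin]))).trans ?_
  rw [sum_const, card_univ, card_TT, smul_eq_mul]

/-! ### The 4-cycle count -/

section count

variable {F : Type} [Field F] [Fintype F] [DecidableEq F]

theorem W4_abs {d q : ℕ} (hq : 1 ≤ q) (N : F × F → F × F → Finset ℤ)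
    (hN : ∀ l x, Cov d q (N l x) (inc x l)) :
    (∑ k, ∑ k', ∑ i, ∑ i', (((N i k ×ˢ N i' k) ×ˢ (N i k' ×ˢ N i' k')).filter
      (fun x => x.1.2 - x.1.1 = x.2.2 - x.2.1)).card) ≤
    (2 * q ^ 2) ^ d * (2 * Fintype.card F ^ 4) +
      Fintype.card F ^ 8 * (d * ((48 * q) * (54 * q ^ 2) ^ (d - 1))) := by
  classical
  set A := (2 * q ^ 2) ^ d with hA
  set E := d * ((48 * q) * (54 * q ^ 2) ^ (d - 1)) with hE
  have h1 : ∀ k k' i i', (((N i k ×ˢ N i' k) ×ˢ (N i k' ×ˢ N i' k')).filter
      (fun x => x.1.2 - x.1.1 = x.2.2 - x.2.1)).card ≤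
      (if inc k i ∧ inc k' i then 1 else 0) * (if inc k i' ∧ inc k' i' then 1 else 0) * A + E := by
    intro k k' i i'
    refine (card_quad hq (hN i k) (hN i' k) (hN i k') (hN i' k')).trans ?_
    refine Nat.add_le_add_right ?_ _
    split_ifs with h2 h3 h4 <;> first | omega | (exfalso; tauto)
  have h2 : ∀ k k', (∑ i, ∑ i', ((if inc k i ∧ inc k' i then 1 else 0) *
      (if inc k i' ∧ inc k' i' then 1 else 0) * A + E)) =
      (univ.filter (fun i : F × F => inc k i ∧ inc k' i)).card ^ 2 * A +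
        Fintype.card F ^ 4 * E := by
    intro k k'
    have h3 : (univ.filter (fun i : F × F => inc k i ∧ inc k' i)).card =
        ∑ i, (if inc k i ∧ inc k' i then 1 else 0) := by
      rw [card_filter]
    simp only [sum_add_distrib, sum_const, card_univ, Fintype.card_prod, smul_eq_mul]
    rw [h3, sq, Finset.sum_mul_sum, Finset.sum_mul]
    congr 1
    · refine sum_congr rfl fun i _ => ?_
      rw [Finset.sum_mul]
    · ring
  calc _ ≤ ∑ k : F × F, ∑ k' : F × F, ((univ.filter (fun i : F × F =>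
        inc k i ∧ inc k' i)).card ^ 2 * A + Fintype.card F ^ 4 * E) := by
        refine sum_le_sum fun k _ => sum_le_sum fun k' _ => ?_
        rw [← h2 k k']
        exact sum_le_sum fun i _ => sum_le_sum fun i' _ => h1 k k' i i'
    _ = (∑ k : F × F, ∑ k' : F × F, (univ.filter (fun i : F × F =>
        inc k i ∧ inc k' i)).card ^ 2) * A + Fintype.card F ^ 8 * E := by
        simp only [sum_add_distrib, sum_const, card_univ, Fintype.card_prod, smul_eq_mul,
          Finset.sum_mul]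
        ring
    _ ≤ A * (2 * Fintype.card F ^ 4) + Fintype.card F ^ 8 * E := by
        refine Nat.add_le_add_right ?_ _
        rw [mul_comm A]
        exact Nat.mul_le_mul_right _ sum_inc_sq_le

open Classical in
theorem card_main (d q : ℕ) : q ^ d ≤ (univ.filter (fun a : Fin d → O q => Main a)).card := by
  have h : (univ.image (fun s : Fin d → Fin q => (fun j => some (false, s j) : Fin d → O q))).card
      = q ^ d := by
    rw [card_image_of_injective]
    · rw [card_univ, Fintype.card_fun, Fintype.card_fin, Fintype.card_fin]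
    · intro s s' hs
      funext j
      have := congrFun hs j
      simpa using this
  rw [← h]
  refine card_le_card fun a ha => ?_
  rw [mem_image] at ha
  obtain ⟨s, -, rfl⟩ := ha
  exact mem_filter.2 ⟨mem_univ _, fun j => rfl⟩

end count

/-! ### The pattern -/

section pat

variable {F : Type} [Field F] [Fintype F] [DecidableEq F]

/-- rows = lines (long products), types = points (short products) -/
noncomputable def pat {d m : ℕ} (q : ℕ) (xv yv : F × F → TT d m → ZMod 2) : Pat where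
  I := F × F
  K := F × F
  P := fun l => QQ q yv l
  Q := fun x => PP q xv x

omit [Field F] in
theorem N_eq {d m q : ℕ} (xv yv : F × F → TT d m → ZMod 2) (l x : F × F) :
    (pat q xv yv).N l x = (PP q xv x * QQ q yv l).coeff.support := by
  unfold Pat.N pat
  rw [mul_comm]

theorem cov_N {d m q : ℕ} {xv yv : F × F → TT d m → ZMod 2}
    (h : ∀ x l, ∑ r, xv x r * yv l r = if inc x l then 1 else 0) (l x : F × F) :
    Cov d q ((pat q xv yv).N l x) (inc x l) := by
  intro k hk
  rw [N_eq, mem_support_iff] at hk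
  obtain ⟨a, ha, hk⟩ := hk
  refine ⟨a, hk, ?_⟩
  rcases main_or_low ha with hm | hl
  · left
    refine ⟨hm, ?_⟩
    by_contra hcon
    apply ha
    rw [cf_main hm, h, if_neg hcon]
  · exact Or.inr hl

theorem card_N {d m q : ℕ} {xv yv : F × F → TT d m → ZMod 2}
    (h : ∀ x l, ∑ r, xv x r * yv l r = if inc x l then 1 else 0) {l x : F × F} (hi : inc x l) :
    q ^ d ≤ ((pat q xv yv).N l x).card := by
  classical
  refine (card_main d q).trans ?_
  rw [← card_image_of_injective _ (H_inj (d := d) (q := q))]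
  refine card_le_card fun k hk => ?_
  rw [mem_image] at hk
  obtain ⟨a, ha, rfl⟩ := hk
  rw [N_eq, mem_support_iff]
  refine ⟨a, ?_, rfl⟩
  rw [cf_main (mem_filter.1 ha).2, h, if_pos hi]
  exact one_ne_zero

theorem Ttot_ge {d m q : ℕ} {xv yv : F × F → TT d m → ZMod 2}
    (h : ∀ x l, ∑ r, xv x r * yv l r = if inc x l then 1 else 0) :
    q ^ d * Fintype.card F ^ 3 ≤ (pat q xv yv).Ttot := by
  classical
  have h1 : ∀ x : F × F, Fintype.card F * q ^ d ≤ ∑ l : F × F, ((pat q xv yv).N l x).card := by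
    intro x
    rw [← card_inc x, ← smul_eq_mul, ← sum_const]
    refine (sum_le_sum fun l hl => card_N h (mem_filter.1 hl).2).trans ?_
    exact sum_le_sum_of_subset (filter_subset _ _)
  have h2 : ∑ _x : F × F, Fintype.card F * q ^ d ≤ (pat q xv yv).Ttot :=
    sum_le_sum fun x _ => h1 x
  refine le_trans (le_of_eq ?_) h2
  rw [sum_const, card_univ, Fintype.card_prod, smul_eq_mul]
  ring

theorem W4_le {d m q : ℕ} (hq : 1 ≤ q) {xv yv : F × F → TT d m → ZMod 2}
    (h : ∀ x l, ∑ r, xv x r * yv l r = if inc x l then 1 else 0) :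
    (pat q xv yv).W4 ≤ (2 * q ^ 2) ^ d * (2 * Fintype.card F ^ 4) +
      Fintype.card F ^ 8 * (d * ((48 * q) * (54 * q ^ 2) ^ (d - 1))) :=
  W4_abs hq (fun l x => (pat q xv yv).N l x) (fun l x => cov_N h l x)

end pat

/-- PART A with parameters. -/
theorem stmtLam {e d m c1 c2 : ℕ} (he : e ≠ 0) (hm : 3 ^ e + 1 < d.choose m) (hd1 : 2 * m < d)
    (hd2 : d < 3 * m) (hc : c1 * 2 ^ (d + 1) < c2 * 4 ^ e) (Λ : ℕ) :
    ∃ p : Pat, Fintype.card p.I = 4 ^ e ∧ Fintype.card p.K = 4 ^ e ∧ 0 < p.Ttot ∧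
      c1 * p.W4 ≤ c2 * p.Ttot ^ 2 ∧
      (∀ k, Λ * (p.Q k).coeff.support.card ^ 2 ≤ p.Ttot) ∧
      (∀ i, Λ * (p.P i).coeff.support.card ^ 3 ≤ p.Ttot ^ 2) := by
  classical
  obtain ⟨F, _, _, _, xv, yv, t0, hF, -, h⟩ := exists_factor he (T := TT d m) (by rw [card_TT]; exact hm)
  set f := Fintype.card F with hf
  have hf0 : 0 < f := by rw [hF]; positivity
  set E := f ^ 8 * (d * (48 * 54 ^ (d - 1))) with hE
  set q := 1 + c1 * E + Λ * (d.choose m) ^ 3 with hq
  have hq1 : 1 ≤ q := by omega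
  have hT := Ttot_ge (q := q) h
  have hW := W4_le (q := q) hq1 h
  have hd : 1 ≤ d := by omega
  have hT0 : 0 < q ^ d * f ^ 3 := by positivity
  have hcard : Fintype.card (F × F) = 4 ^ e := by
    rw [Fintype.card_prod, ← hf, hF, ← pow_add, ← two_mul, pow_mul]
    norm_num
  have hf2 : f ^ 2 = 4 ^ e := by
    rw [hF, ← pow_mul, mul_comm e 2, pow_mul]
    norm_num
  have hC : 1 ≤ d.choose m := le_trans (Nat.le_add_left 1 (3 ^ e)) hm.le
  have hf3 : 1 ≤ f ^ 3 := Nat.one_le_pow _ _ hf0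
  have hf4 : 1 ≤ f ^ 4 := Nat.one_le_pow _ _ hf0
  refine ⟨pat q xv yv, hcard, hcard, lt_of_lt_of_le hT0 hT, ?_, fun k => ?_, fun i => ?_⟩
  · have e1 : (2 * q ^ 2) ^ d * (2 * f ^ 4) + f ^ 8 * (d * ((48 * q) * (54 * q ^ 2) ^ (d - 1))) =
        2 ^ (d + 1) * (f ^ 4 * q ^ (2 * d)) + E * q ^ (2 * d - 1) := by
      have e2 : q * (q ^ 2) ^ (d - 1) = q ^ (2 * d - 1) := by
        rw [← pow_mul, ← pow_succ']
        congr 1
        omega
      rw [mul_pow, mul_pow 54, ← pow_mul, pow_succ, hE, ← e2]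
      ring
    have e3 : q * q ^ (2 * d - 1) = q ^ (2 * d) := by
      rw [← pow_succ']
      congr 1
      omega
    have h1 : c1 * (pat q xv yv).W4 ≤ c1 * 2 ^ (d + 1) * (f ^ 4 * q ^ (2 * d)) + q ^ (2 * d) := by
      calc c1 * (pat q xv yv).W4 ≤ c1 * (2 ^ (d + 1) * (f ^ 4 * q ^ (2 * d)) + E * q ^ (2 * d - 1)) := by
            refine Nat.mul_le_mul_left _ ?_
            rw [← e1]
            exact hW
        _ = c1 * 2 ^ (d + 1) * (f ^ 4 * q ^ (2 * d)) + c1 * E * q ^ (2 * d - 1) := by ring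
        _ ≤ _ := by
            refine Nat.add_le_add_left ?_ _
            rw [← e3]
            exact Nat.mul_le_mul_right _ (by omega)
    have h2 : q ^ (2 * d) ≤ f ^ 4 * q ^ (2 * d) := Nat.le_mul_of_pos_left _ (by omega)
    calc c1 * (pat q xv yv).W4 ≤ (c1 * 2 ^ (d + 1) + 1) * (f ^ 4 * q ^ (2 * d)) := by
          rw [add_mul, one_mul]
          exact h1.trans (Nat.add_le_add_left h2 _)
      _ ≤ (c2 * 4 ^ e) * (f ^ 4 * q ^ (2 * d)) := Nat.mul_le_mul_right _ (by omega)
      _ = c2 * (q ^ d * f ^ 3) ^ 2 := by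
          rw [← hf2]
          ring
      _ ≤ c2 * (pat q xv yv).Ttot ^ 2 := Nat.mul_le_mul_left _ (Nat.pow_le_pow_left hT 2)
  · have h1 : ((pat q xv yv).Q k).coeff.support.card ≤ d.choose m * q ^ m := ns_PP xv k
    calc Λ * ((pat q xv yv).Q k).coeff.support.card ^ 2 ≤ Λ * (d.choose m * q ^ m) ^ 2 :=
          Nat.mul_le_mul_left _ (Nat.pow_le_pow_left h1 2)
      _ = Λ * (d.choose m) ^ 2 * q ^ (2 * m) := by ring
      _ ≤ q * q ^ (2 * m) := by
          refine Nat.mul_le_mul_right _ ?_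
          have : Λ * (d.choose m) ^ 2 ≤ Λ * (d.choose m) ^ 3 :=
            Nat.mul_le_mul_left _ (Nat.pow_le_pow_right hC (by omega))
          omega
      _ = q ^ (2 * m + 1) := by ring
      _ ≤ q ^ d := Nat.pow_le_pow_right hq1 (by omega)
      _ ≤ q ^ d * f ^ 3 := Nat.le_mul_of_pos_right _ (by omega)
      _ ≤ _ := hT
  · have h1 : ((pat q xv yv).P i).coeff.support.card ≤ d.choose m * q ^ (d - m) := ns_QQ yv i
    calc Λ * ((pat q xv yv).P i).coeff.support.card ^ 3 ≤ Λ * (d.choose m * q ^ (d - m)) ^ 3 :=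
          Nat.mul_le_mul_left _ (Nat.pow_le_pow_left h1 3)
      _ = Λ * (d.choose m) ^ 3 * q ^ (3 * (d - m)) := by ring
      _ ≤ q * q ^ (3 * (d - m)) := Nat.mul_le_mul_right _ (by omega)
      _ = q ^ (3 * (d - m) + 1) := by ring
      _ ≤ q ^ (2 * d) := Nat.pow_le_pow_right hq1 (by omega)
      _ = (q ^ d) ^ 2 := by ring
      _ ≤ (q ^ d * f ^ 3) ^ 2 := Nat.pow_le_pow_left (Nat.le_mul_of_pos_right _ (by omega)) 2
      _ ≤ _ := Nat.pow_le_pow_left hT 2

/-- the instance used for P194: `e = 20`, `d = 35`, `m = 17` -/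
theorem stmtLam20 (Λ : ℕ) :
    ∃ p : Pat, Fintype.card p.I = 4 ^ 20 ∧ Fintype.card p.K = 4 ^ 20 ∧ 0 < p.Ttot ∧
      25 * p.W4 ≤ 2 * p.Ttot ^ 2 ∧
      (∀ k, Λ * (p.Q k).coeff.support.card ^ 2 ≤ p.Ttot) ∧
      (∀ i, Λ * (p.P i).coeff.support.card ^ 3 ≤ p.Ttot ^ 2) := by
  have h : (35 : ℕ).choose 17 = 4537567650 := by
    rw [Nat.choose_eq_descFactorial_div_factorial]
    rfl
  exact stmtLam (e := 20) (d := 35) (m := 17) (c1 := 25) (c2 := 2) (by norm_num)
    (by rw [h]; norm_num) (by norm_num) (by norm_num) (by norm_num) Λ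

end Vale.Agent.P201.Z.PA.Lam
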