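import Vale.Agent.P201.Z.A.Poly

/-!
P201, part A, block A3: the number of four term relations between monomials.
-/

namespace Vale.Agent.P201.Z.PA.Cnt

open Finset

variable {q : ℕ}

/-- the variables that occur in a coordinate -/
def cand : O q → Finset (O q)
  | none => ∅
  | some (_, s) => {some (true, s), some (false, s)}

theorem card_cand (b : O q) : (cand b).card ≤ 2 := by
  rcases b with _ | ⟨t, s⟩
  · simp [cand]
  · exact card_le_two

theorem vv_pos_iff {b : O q} {s : Fin q} : 0 < vv b s ↔ b = some (true, s) ∨ b = some (false, s) := by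
  rcases b with _ | ⟨t, s'⟩
  · simp [vv]
  · by_cases hs : s = s'
    · subst hs
      cases t <;> simp [vv]
    · have hs' : ¬ s' = s := fun h => hs h.symm
      cases t <;> simp [vv, hs, hs']

theorem mem_cand {b c : O q} {s : Fin q} (h : 0 < vv b s) (h' : 0 < vv c s) : c ∈ cand b := by
  rw [vv_pos_iff] at h h'
  rcases h with rfl | rfl <;> rcases h' with rfl | rfl <;> simp [cand]

/-- in a relation every term comes from one of the terms of the other side -/
theorem mem_of_rel {b1 b2 b3 b4 : O q} (h : vv b2 + vv b3 = vv b1 + vv b4) :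
    b2 ∈ insert none (cand b1 ∪ cand b4) := by
  rcases hb : b2 with _ | ⟨t, s⟩
  · exact mem_insert_self _ _
  · have h1 : 0 < vv b2 s := by
      rw [vv_pos_iff, hb]
      cases t <;> simp
    have h2 : vv b2 s + vv b3 s = vv b1 s + vv b4 s := congrFun h s
    refine mem_insert_of_mem ?_
    rw [← hb, mem_union]
    by_cases h3 : 0 < vv b1 s
    · exact Or.inl (mem_cand h3 h1)
    · exact Or.inr (mem_cand (by omega) h1)

/-- a quadruple of coordinates -/
abbrev O4 (q : ℕ) : Type := (O q × O q) × (O q × O q)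

/-- The four term relation: `x = ((b1, b2), (b3, b4))`. -/
def Rl (x : O4 q) : Prop := vv x.1.2 + vv x.2.1 = vv x.1.1 + vv x.2.2

instance : DecidablePred (Rl (q := q)) := fun x => by unfold Rl; infer_instance

theorem card_O : Fintype.card (O q) = 2 * q + 1 := by
  simp [O, two_mul]

/-- Fibres over `(b1, b4)`. -/
theorem fib (s : Finset (O4 q)) (hs : ∀ x ∈ s, Rl x) (b : O q × O q) :
    (s.filter (fun x => (x.1.1, x.2.2) = b)).card ≤ (insert none (cand b.1 ∪ cand b.2)).card := by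
  refine card_le_card_of_injOn (fun x => x.1.2) ?_ ?_
  · intro x hx
    rw [mem_coe, mem_filter] at hx
    obtain ⟨h1, h2⟩ := hx
    have h3 := mem_of_rel (hs x h1)
    have e1 : x.1.1 = b.1 := (Prod.ext_iff.1 h2).1
    have e2 : x.2.2 = b.2 := (Prod.ext_iff.1 h2).2
    rw [e1, e2] at h3
    exact h3
  · intro x hx y hy hxy
    rw [mem_coe, mem_filter] at hx hy
    obtain ⟨h1, h2⟩ := hx
    obtain ⟨h3, h4⟩ := hy
    have e1 := hs x h1
    have e2 := hs y h3
    unfold Rl at e1 e2
    obtain ⟨⟨x1, x2⟩, ⟨x3, x4⟩⟩ := x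
    obtain ⟨⟨y1, y2⟩, ⟨y3, y4⟩⟩ := y
    simp only at h2 h4 hxy e1 e2
    subst h2
    obtain ⟨rfl, rfl⟩ := Prod.mk.inj h4
    subst hxy
    rw [← e1] at e2
    have : vv x3 = vv y3 := (add_left_cancel e2).symm
    rw [vv_inj this]

theorem card_ins (b : O q × O q) : (insert none (cand b.1 ∪ cand b.2)).card ≤ 5 := by
  have h1 := card_insert_le (none : O q) (cand b.1 ∪ cand b.2)
  have h2 := card_union_le (cand b.1) (cand b.2)
  have h3 := card_cand b.1
  have h4 := card_cand b.2
  omega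

/-- number of solutions -/
theorem card_sol (hq : 1 ≤ q) : (univ.filter (fun x : O4 q => Rl x)).card ≤ 45 * q ^ 2 := by
  have h := card_le_mul_card_image_of_maps_to (s := univ.filter (fun x : O4 q => Rl x))
    (t := (univ : Finset (O q × O q))) (f := fun x => (x.1.1, x.2.2)) (fun _ _ => mem_univ _) 5
    (fun b _ => (fib _ (fun x hx => (mem_filter.1 hx).2) b).trans (card_ins b))
  rw [card_univ, Fintype.card_prod, card_O] at h
  refine h.trans ?_
  nlinarith

/-- number of solutions with `b1 = none` -/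
theorem card_none1 (hq : 1 ≤ q) :
    (univ.filter (fun x : O4 q => Rl x ∧ x.1.1 = none)).card ≤ 9 * q := by
  have h := card_le_mul_card_image_of_maps_to
    (s := univ.filter (fun x : O4 q => Rl x ∧ x.1.1 = none))
    (t := (univ : Finset (O q))) (f := fun x => x.2.2) (fun _ _ => mem_univ _) 3
    (fun b _ => ?_)
  · rw [card_univ, card_O] at h
    omega
  · have h1 := fib (univ.filter (fun x : O4 q => Rl x ∧ x.1.1 = none))
      (fun x hx => (mem_filter.1 hx).2.1) (none, b)
    have h2 : (insert none (cand (none : O q) ∪ cand b)).card ≤ 3 := by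
      have h1 := card_insert_le (none : O q) (cand none ∪ cand b)
      have h2 : (cand (none : O q) ∪ cand b) = cand b := by simp [cand]
      have h4 := card_cand b
      rw [h2] at h1 ⊢
      omega
    refine le_trans (card_le_card ?_) (h1.trans h2)
    intro x hx
    rw [mem_filter] at hx ⊢
    refine ⟨hx.1, ?_⟩
    rw [(mem_filter.1 hx.1).2.2, hx.2]

theorem card_none4 (hq : 1 ≤ q) :
    (univ.filter (fun x : O4 q => Rl x ∧ x.2.2 = none)).card ≤ 9 * q := by
  refine le_trans (card_le_card_of_injOn (fun x => ((x.2.2, x.2.1), (x.1.2, x.1.1))) ?_ ?_)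
    (card_none1 hq)
  · intro x hx
    rw [mem_coe, mem_filter] at hx ⊢
    refine ⟨mem_univ _, ?_, hx.2.2⟩
    have := hx.2.1
    unfold Rl at this ⊢
    simp only
    rw [add_comm, this, add_comm]
  · rintro ⟨⟨x1, x2⟩, ⟨x3, x4⟩⟩ _ ⟨⟨y1, y2⟩, ⟨y3, y4⟩⟩ _ h
    simp only [Prod.mk.injEq] at h ⊢
    tauto

theorem card_none2 (hq : 1 ≤ q) :
    (univ.filter (fun x : O4 q => Rl x ∧ x.1.2 = none)).card ≤ 9 * q := by
  refine le_trans (card_le_card_of_injOn (fun x => ((x.1.2, x.1.1), (x.2.2, x.2.1))) ?_ ?_)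
    (card_none1 hq)
  · intro x hx
    rw [mem_coe, mem_filter] at hx ⊢
    refine ⟨mem_univ _, ?_, hx.2.2⟩
    have := hx.2.1
    unfold Rl at this ⊢
    simp only
    exact this.symm
  · rintro ⟨⟨x1, x2⟩, ⟨x3, x4⟩⟩ _ ⟨⟨y1, y2⟩, ⟨y3, y4⟩⟩ _ h
    simp only [Prod.mk.injEq] at h ⊢
    tauto

theorem card_none3 (hq : 1 ≤ q) :
    (univ.filter (fun x : O4 q => Rl x ∧ x.2.1 = none)).card ≤ 9 * q := by
  refine le_trans (card_le_card_of_injOn (fun x => ((x.2.1, x.2.2), (x.1.1, x.1.2))) ?_ ?_)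
    (card_none1 hq)
  · intro x hx
    rw [mem_coe, mem_filter] at hx ⊢
    refine ⟨mem_univ _, ?_, hx.2.2⟩
    have := hx.2.1
    unfold Rl at this ⊢
    simp only
    rw [add_comm, ← this, add_comm]
  · rintro ⟨⟨x1, x2⟩, ⟨x3, x4⟩⟩ _ ⟨⟨y1, y2⟩, ⟨y3, y4⟩⟩ _ h
    simp only [Prod.mk.injEq] at h ⊢
    tauto

/-- one of the four entries is `none` -/
def Nn (x : O4 q) : Prop := x.1.1 = none ∨ x.1.2 = none ∨ x.2.1 = none ∨ x.2.2 = none

instance : DecidablePred (Nn (q := q)) := fun x => by unfold Nn; infer_instance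

theorem card_none (hq : 1 ≤ q) :
    (univ.filter (fun x : O4 q => Rl x ∧ Nn x)).card ≤ 36 * q := by
  have hsub : univ.filter (fun x : O4 q => Rl x ∧ Nn x) ⊆
      (univ.filter (fun x : O4 q => Rl x ∧ x.1.1 = none) ∪
        univ.filter (fun x : O4 q => Rl x ∧ x.1.2 = none)) ∪
      (univ.filter (fun x : O4 q => Rl x ∧ x.2.1 = none) ∪
        univ.filter (fun x : O4 q => Rl x ∧ x.2.2 = none)) := by
    intro x hx
    rw [mem_filter] at hx
    obtain ⟨-, h1, h2⟩ := hx
    rw [mem_union, mem_union, mem_union, mem_filter, mem_filter, mem_filter, mem_filter]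
    rcases h2 with h | h | h | h
    · exact Or.inl (Or.inl ⟨mem_univ _, h1, h⟩)
    · exact Or.inl (Or.inr ⟨mem_univ _, h1, h⟩)
    · exact Or.inr (Or.inl ⟨mem_univ _, h1, h⟩)
    · exact Or.inr (Or.inr ⟨mem_univ _, h1, h⟩)
  have h0 := card_le_card hsub
  have h1 := card_union_le (univ.filter (fun x : O4 q => Rl x ∧ x.1.1 = none) ∪
        univ.filter (fun x : O4 q => Rl x ∧ x.1.2 = none))
      (univ.filter (fun x : O4 q => Rl x ∧ x.2.1 = none) ∪
        univ.filter (fun x : O4 q => Rl x ∧ x.2.2 = none))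
  have h2 := card_union_le (univ.filter (fun x : O4 q => Rl x ∧ x.1.1 = none))
        (univ.filter (fun x : O4 q => Rl x ∧ x.1.2 = none))
  have h3 := card_union_le (univ.filter (fun x : O4 q => Rl x ∧ x.2.1 = none))
        (univ.filter (fun x : O4 q => Rl x ∧ x.2.2 = none))
  have := card_none1 hq
  have := card_none2 hq
  have := card_none3 hq
  have := card_none4 hq
  omega

/-- all four entries are variables to the power one -/
def M1 (x : O4 q) : Prop := ty x.1.1 = 1 ∧ ty x.1.2 = 1 ∧ ty x.2.1 = 1 ∧ ty x.2.2 = 1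

instance : DecidablePred (M1 (q := q)) := fun x => by unfold M1; infer_instance

theorem ty_one {b : O q} (h : ty b = 1) : ∃ s, b = some (false, s) := by
  rcases b with _ | ⟨t, s⟩
  · simp [ty] at h
  · cases t
    · exact ⟨s, rfl⟩
    · simp [ty] at h

theorem card_main (q : ℕ) : (univ.filter (fun x : O4 q => Rl x ∧ M1 x)).card ≤ 2 * q ^ 2 := by
  have hsub : univ.filter (fun x : O4 q => Rl x ∧ M1 x) ⊆
      univ.image (fun s : Fin q × Fin q => (((some (false, s.1), some (false, s.1)),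
        (some (false, s.2), some (false, s.2))) : O4 q)) ∪
      univ.image (fun s : Fin q × Fin q => (((some (false, s.1), some (false, s.2)),
        (some (false, s.1), some (false, s.2))) : O4 q)) := by
    rintro ⟨⟨x1, x2⟩, ⟨x3, x4⟩⟩ hx
    rw [mem_filter] at hx
    obtain ⟨-, hr, h1, h2, h3, h4⟩ := hx
    simp only at h1 h2 h3 h4
    obtain ⟨s1, rfl⟩ := ty_one h1
    obtain ⟨s2, rfl⟩ := ty_one h2
    obtain ⟨s3, rfl⟩ := ty_one h3
    obtain ⟨s4, rfl⟩ := ty_one h4
    unfold Rl at hr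
    simp only at hr
    have key : ∀ s : Fin q, ((if s = s2 then 1 else 0) + (if s = s3 then 1 else 0) : ℕ) =
        (if s = s1 then 1 else 0) + (if s = s4 then 1 else 0) := by
      intro s
      have h := congrFun hr s
      simpa [vv, Pi.single_apply] using h
    rw [mem_union, mem_image, mem_image]
    by_cases h12 : s1 = s2
    · subst h12
      left
      have h34 : s3 = s4 := by
        have h := key s3
        by_contra hne
        rw [if_neg hne, if_pos rfl] at h
        omega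
      subst h34
      exact ⟨(s1, s3), mem_univ _, rfl⟩
    · right
      have h13 : s1 = s3 := by
        have h := key s1
        by_contra hne
        rw [if_neg h12, if_neg hne, if_pos rfl] at h
        omega
      subst h13
      have h24 : s2 = s4 := by
        have h := key s2
        have h21 : ¬ s2 = s1 := fun h => h12 h.symm
        by_contra hne
        rw [if_neg hne, if_neg h21, if_pos rfl] at h
        omega
      subst h24
      exact ⟨(s1, s2), mem_univ _, rfl⟩
  have h1 := (card_le_card hsub).trans (card_union_le _ _)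
  have h2 : (univ.image (fun s : Fin q × Fin q => (((some (false, s.1), some (false, s.1)),
        (some (false, s.2), some (false, s.2))) : O4 q))).card ≤ q * q := by
    refine card_image_le.trans ?_
    rw [card_univ, Fintype.card_prod, Fintype.card_fin]
  have h3 : (univ.image (fun s : Fin q × Fin q => (((some (false, s.1), some (false, s.2)),
        (some (false, s.1), some (false, s.2))) : O4 q))).card ≤ q * q := by
    refine card_image_le.trans ?_
    rw [card_univ, Fintype.card_prod, Fintype.card_fin]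
  nlinarith

/-! ### Monomials -/

variable {d : ℕ}

/-- quadruples of monomials as a family of quadruples of coordinates -/
theorem card_pi (P : Fin d → O4 q → Prop) [∀ j, DecidablePred (P j)] :
    (univ.filter (fun f : Fin d → O4 q => ∀ j, P j (f j))).card =
      ∏ j, (univ.filter (P j)).card := by
  classical
  rw [← Fintype.card_piFinset]
  congr 1
  ext f
  simp [Fintype.mem_piFinset]

theorem card_mainQ (d q : ℕ) :
    (univ.filter (fun f : Fin d → O4 q => ∀ j, Rl (f j) ∧ M1 (f j))).card ≤ (2 * q ^ 2) ^ d := by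
  rw [card_pi (fun _ x => Rl x ∧ M1 x), prod_const, card_univ, Fintype.card_fin]
  exact Nat.pow_le_pow_left (card_main q) d

theorem card_lowQ (d : ℕ) (hq : 1 ≤ q) :
    (univ.filter (fun f : Fin d → O4 q => (∀ j, Rl (f j)) ∧ ∃ j, Nn (f j))).card ≤
      d * (36 * q * (45 * q ^ 2) ^ (d - 1)) := by
  classical
  have hsub : univ.filter (fun f : Fin d → O4 q => (∀ j, Rl (f j)) ∧ ∃ j, Nn (f j)) ⊆
      univ.biUnion (fun j0 : Fin d => univ.filter (fun f : Fin d → O4 q =>
        ∀ j, Rl (f j) ∧ (j = j0 → Nn (f j)))) := by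
    intro f hf
    rw [mem_filter] at hf
    obtain ⟨-, h1, j0, h2⟩ := hf
    rw [mem_biUnion]
    refine ⟨j0, mem_univ _, ?_⟩
    rw [mem_filter]
    exact ⟨mem_univ _, fun j => ⟨h1 j, fun h => h ▸ h2⟩⟩
  refine (card_le_card hsub).trans (card_biUnion_le.trans ?_)
  have : ∀ j0 : Fin d, (univ.filter (fun f : Fin d → O4 q =>
        ∀ j, Rl (f j) ∧ (j = j0 → Nn (f j)))).card ≤ 36 * q * (45 * q ^ 2) ^ (d - 1) := by
    intro j0
    rw [card_pi (fun j x => Rl x ∧ (j = j0 → Nn x)), ← Finset.mul_prod_erase _ _ (mem_univ j0)]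
    refine Nat.mul_le_mul ?_ ?_
    · refine le_trans (card_le_card ?_) (card_none hq)
      intro x hx
      rw [mem_filter] at hx ⊢
      exact ⟨hx.1, hx.2.1, hx.2.2 rfl⟩
    · refine (prod_le_pow_card _ _ (45 * q ^ 2) fun j _ => ?_).trans ?_
      · refine le_trans (card_le_card ?_) (card_sol hq)
        intro x hx
        rw [mem_filter] at hx ⊢
        exact ⟨hx.1, hx.2.1⟩
      · rw [card_erase_of_mem (mem_univ _), card_univ, Fintype.card_fin]
  refine (sum_le_sum fun j0 _ => this j0).trans ?_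
  rw [sum_const, card_univ, Fintype.card_fin, smul_eq_mul]

/-- COUNT for one quadruple of sets of heights. -/
theorem card_four (hq : 1 ≤ q) (N1 N2 N3 N4 : Finset ℤ) (A : Prop) [Decidable A]
    (A1 A2 A3 A4 : Prop) (hA : A1 → A2 → A3 → A4 → A)
    (h1 : ∀ h ∈ N1, ∃ a : Fin d → O q, (Main a ∧ A1 ∨ Low a) ∧ H a = h)
    (h2 : ∀ h ∈ N2, ∃ a : Fin d → O q, (Main a ∧ A2 ∨ Low a) ∧ H a = h)
    (h3 : ∀ h ∈ N3, ∃ a : Fin d → O q, (Main a ∧ A3 ∨ Low a) ∧ H a = h)
    (h4 : ∀ h ∈ N4, ∃ a : Fin d → O q, (Main a ∧ A4 ∨ Low a) ∧ H a = h) :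
    (((N1 ×ˢ N2) ×ˢ (N3 ×ˢ N4)).filter (fun x => x.1.2 - x.1.1 = x.2.2 - x.2.1)).card ≤
      (if A then (2 * q ^ 2) ^ d else 0) + d * (36 * q * (45 * q ^ 2) ^ (d - 1)) := by
  classical
  have hsub : ((N1 ×ˢ N2) ×ˢ (N3 ×ˢ N4)).filter (fun x => x.1.2 - x.1.1 = x.2.2 - x.2.1) ⊆
      ((if A then univ.filter (fun f : Fin d → O4 q => ∀ j, Rl (f j) ∧ M1 (f j)) else ∅) ∪
        univ.filter (fun f : Fin d → O4 q => (∀ j, Rl (f j)) ∧ ∃ j, Nn (f j))).image
        (fun f => ((H (fun j => (f j).1.1), H (fun j => (f j).1.2)),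
          (H (fun j => (f j).2.1), H (fun j => (f j).2.2)))) := by
    rintro ⟨⟨x1, x2⟩, ⟨x3, x4⟩⟩ hx
    rw [mem_filter] at hx
    obtain ⟨hx, he⟩ := hx
    simp only [mem_product] at hx he
    obtain ⟨⟨m1, m2⟩, m3, m4⟩ := hx
    obtain ⟨a1, g1, e1⟩ := h1 _ m1
    obtain ⟨a2, g2, e2⟩ := h2 _ m2
    obtain ⟨a3, g3, e3⟩ := h3 _ m3
    obtain ⟨a4, g4, e4⟩ := h4 _ m4
    subst e1 e2 e3 e4
    have hrel := rel_of_H he
    rw [mem_image]
    refine ⟨fun j => ((a1 j, a2 j), (a3 j, a4 j)), ?_, rfl⟩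
    rw [mem_union]
    by_cases hL : Low a1 ∨ Low a2 ∨ Low a3 ∨ Low a4
    · right
      rw [mem_filter]
      refine ⟨mem_univ _, fun j => hrel j, ?_⟩
      rcases hL with ⟨j, hj⟩ | ⟨j, hj⟩ | ⟨j, hj⟩ | ⟨j, hj⟩
      · exact ⟨j, Or.inl hj⟩
      · exact ⟨j, Or.inr (Or.inl hj)⟩
      · exact ⟨j, Or.inr (Or.inr (Or.inl hj))⟩
      · exact ⟨j, Or.inr (Or.inr (Or.inr hj))⟩
    · left
      push Not at hL
      obtain ⟨l1, l2, l3, l4⟩ := hL
      obtain ⟨f1, k1⟩ := g1.resolve_right l1
      obtain ⟨f2, k2⟩ := g2.resolve_right l2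
      obtain ⟨f3, k3⟩ := g3.resolve_right l3
      obtain ⟨f4, k4⟩ := g4.resolve_right l4
      rw [if_pos (hA k1 k2 k3 k4), mem_filter]
      exact ⟨mem_univ _, fun j => ⟨hrel j, f1 j, f2 j, f3 j, f4 j⟩⟩
  refine (card_le_card hsub).trans (card_image_le.trans ((card_union_le _ _).trans ?_))
  refine Nat.add_le_add ?_ (card_lowQ d hq)
  split_ifs
  · exact card_mainQ d q
  · simp

/-- COUNT of all four term relations. -/
theorem count_le (hq : 1 ≤ q) {ι κ : Type} [Fintype ι] [Fintype κ] (N : ι → κ → Finset ℤ)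
    (A : ι → κ → Prop) [∀ i k, Decidable (A i k)]
    (hN : ∀ i k, ∀ h ∈ N i k, ∃ a : Fin d → O q, (Main a ∧ A i k ∨ Low a) ∧ H a = h) :
    ∑ k, ∑ k', ∑ i, ∑ i', (((N i k ×ˢ N i' k) ×ˢ (N i k' ×ˢ N i' k')).filter
        (fun x => x.1.2 - x.1.1 = x.2.2 - x.2.1)).card ≤
      (2 * q ^ 2) ^ d * (∑ i, ∑ i', (univ.filter (fun k => A i k ∧ A i' k)).card ^ 2) +
      (Fintype.card ι * Fintype.card κ) ^ 2 * (d * (36 * q * (45 * q ^ 2) ^ (d - 1))) := by
  classical
  set E := d * (36 * q * (45 * q ^ 2) ^ (d - 1)) with hE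
  have h1 : ∀ k k' i i', (((N i k ×ˢ N i' k) ×ˢ (N i k' ×ˢ N i' k')).filter
        (fun x => x.1.2 - x.1.1 = x.2.2 - x.2.1)).card ≤
      (2 * q ^ 2) ^ d * (if (A i k ∧ A i' k) ∧ (A i k' ∧ A i' k') then 1 else 0) + E := by
    intro k k' i i'
    have := card_four hq (N i k) (N i' k) (N i k') (N i' k')
      ((A i k ∧ A i' k) ∧ (A i k' ∧ A i' k')) (A i k) (A i' k) (A i k') (A i' k')
      (fun a b c d => ⟨⟨a, b⟩, c, d⟩) (hN i k) (hN i' k) (hN i k') (hN i' k')
    refine this.trans (le_of_eq ?_)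
    rw [mul_ite, mul_one, mul_zero]
  have h2 : ∀ i i', ∑ k, ∑ k', (if (A i k ∧ A i' k) ∧ (A i k' ∧ A i' k') then 1 else 0) =
      (univ.filter (fun k => A i k ∧ A i' k)).card ^ 2 := by
    intro i i'
    rw [sq, card_filter, sum_mul_sum]
    refine sum_congr rfl fun k _ => sum_congr rfl fun k' _ => ?_
    by_cases h : A i k ∧ A i' k <;> by_cases h' : A i k' ∧ A i' k' <;> simp [h, h']
  refine (sum_le_sum fun k _ => sum_le_sum fun k' _ => sum_le_sum fun i _ => sum_le_sum fun i' _ =>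
    h1 k k' i i').trans (le_of_eq ?_)
  simp only [sum_add_distrib, ← mul_sum, sum_const, card_univ, smul_eq_mul]
  congr 1
  · congr 1
    rw [← sum_congr rfl fun i _ => sum_congr rfl fun i' _ => h2 i i']
    rw [sum_congr rfl fun k _ => sum_comm, sum_comm]
    refine sum_congr rfl fun i _ => ?_
    rw [sum_congr rfl fun k _ => sum_comm, sum_comm]
  · ring

end Vale.Agent.P201.Z.PA.Cnt
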