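import Vale.Agent.P201.Z.A.Count
import Vale.Agent.P201.Z.A.Rank
import Vale.Agent.P201.Z.Defs

/-!
P201, part A: the pattern.
-/

namespace Vale.Agent.P201.Z.PA.Fi

open Finset AddMonoidAlgebra

variable {ι κ : Type} {d m q : ℕ}

theorem card_main_ge (d q : ℕ) (s : Finset ℤ) (hs : ∀ a : Fin d → O q, Main a → H a ∈ s) :
    q ^ d ≤ s.card := by
  classical
  have h1 : (univ.image (fun f : Fin d → Fin q => H (fun j => (some (false, f j) : O q)))).card =
      q ^ d := by
    rw [card_image_of_injective, card_univ, Fintype.card_fun, Fintype.card_fin, Fintype.card_fin]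
    intro f g h
    have := H_inj h
    funext j
    have := congrFun this j
    simpa using this
  rw [← h1]
  refine card_le_card ?_
  intro x hx
  rw [mem_image] at hx
  obtain ⟨f, -, rfl⟩ := hx
  exact hs _ fun j => rfl

/-- the pattern of two families of vectors -/
noncomputable def pt (F : Type) [Fintype F] [DecidableEq F] (q : ℕ) {d m : ℕ}
    (xv yv : F × F → TT d m → ZMod 2) : Pat :=
  { I := F × F, K := F × F, P := PP q xv, Q := QQ q yv }

theorem pt_mem {F : Type} [Field F] [Fintype F] [DecidableEq F]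
    {xv yv : F × F → TT d m → ZMod 2}
    (hxy : ∀ i k, ∑ r, xv i r * yv k r = if inc i k then 1 else 0) (i k : F × F) (h : ℤ)
    (hh : h ∈ (pt F q xv yv).N i k) :
    ∃ a : Fin d → O q, (Main a ∧ inc i k ∨ Low a) ∧ H a = h := by
  unfold Pat.N pt at hh
  rw [mem_support_iff] at hh
  obtain ⟨a, ha, rfl⟩ := hh
  refine ⟨a, ?_, rfl⟩
  rcases main_or_low ha with hm | hl
  · left
    refine ⟨hm, ?_⟩
    rw [cf_main hm, hxy] at ha
    by_contra hcon
    exact ha (if_neg hcon)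
  · exact Or.inr hl

theorem pt_card {F : Type} [Field F] [Fintype F] [DecidableEq F]
    {xv yv : F × F → TT d m → ZMod 2}
    (hxy : ∀ i k, ∑ r, xv i r * yv k r = if inc i k then 1 else 0) (i k : F × F)
    (hik : inc i k) : q ^ d ≤ ((pt F q xv yv).N i k).card := by
  refine card_main_ge d q _ fun a ha => ?_
  unfold Pat.N pt
  rw [mem_support_iff]
  refine ⟨a, ?_, rfl⟩
  rw [cf_main ha, hxy, if_pos hik]
  exact one_ne_zero

theorem pt_Ttot {F : Type} [Field F] [Fintype F] [DecidableEq F]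
    {xv yv : F × F → TT d m → ZMod 2}
    (hxy : ∀ i k, ∑ r, xv i r * yv k r = if inc i k then 1 else 0) :
    q ^ d * Fintype.card F ^ 3 ≤ (pt F q xv yv).Ttot := by
  classical
  have h1 : ∀ k i : F × F, (if inc i k then q ^ d else 0) ≤ ((pt F q xv yv).N i k).card := by
    intro k i
    split_ifs with h
    · exact pt_card hxy i k h
    · exact Nat.zero_le _
  have h2 : ∑ k : F × F, ∑ i : F × F, (if inc i k then q ^ d else 0) = q ^ d * Fintype.card F ^ 3 := by
    rw [sum_comm]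
    have h3 : ∀ i : F × F, ∑ k : F × F, (if inc i k then q ^ d else 0) =
        Fintype.card F * q ^ d := by
      intro i
      rw [← sum_filter, sum_const, card_inc, smul_eq_mul]
    rw [sum_congr rfl fun i _ => h3 i, sum_const, card_univ, Fintype.card_prod, smul_eq_mul]
    ring
  rw [← h2]
  exact sum_le_sum fun k _ => sum_le_sum fun i _ => h1 k i

theorem pt_W4 {F : Type} [Field F] [Fintype F] [DecidableEq F]
    {xv yv : F × F → TT d m → ZMod 2} (hq : 1 ≤ q)
    (hxy : ∀ i k, ∑ r, xv i r * yv k r = if inc i k then 1 else 0) :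
    (pt F q xv yv).W4 ≤ (2 * q ^ 2) ^ d * (2 * Fintype.card F ^ 4) +
      (Fintype.card F ^ 4) ^ 2 * (d * (36 * q * (45 * q ^ 2) ^ (d - 1))) := by
  classical
  have h := Cnt.count_le (d := d) (ι := F × F) (κ := F × F) hq (pt F q xv yv).N
    (fun i k => inc i k) (fun i k h hh => pt_mem hxy i k h hh)
  refine h.trans (Nat.add_le_add (Nat.mul_le_mul_left _ sum_inc_sq_le) (Nat.mul_le_mul_right _ ?_))
  refine le_of_eq ?_
  show (Fintype.card (F × F) * Fintype.card (F × F)) ^ 2 = _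
  rw [Fintype.card_prod]
  ring

theorem card_TT : 3 ^ 20 + 1 < Fintype.card (TT 35 17) := by
  rw [Fintype.card_finset_len, Fintype.card_fin]
  have : Nat.choose 35 17 = 4537567650 := by
    rw [Nat.choose_eq_descFactorial_div_factorial]
    norm_num [Nat.descFactorial, Nat.factorial]
  rw [this]
  norm_num

/-- correction of the augmentation -/
theorem correct {F : Type} [Field F] [Fintype F] [DecidableEq F] {T : Type} [Fintype T]
    [DecidableEq T] {xv yv : F × F → T → ZMod 2} {t0 : T} (h0 : ∀ i, xv i t0 = 0)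
    (hxy : ∀ i k, ∑ r, xv i r * yv k r = if inc i k then 1 else 0) :
    ∃ yv' : F × F → T → ZMod 2,
      (∀ i k, ∑ r, xv i r * yv' k r = if inc i k then 1 else 0) ∧ ∑ k, ∑ S, yv' k S = 1 := by
  refine ⟨fun k S => yv k S + if k = 0 ∧ S = t0 then 1 + ∑ k, ∑ S, yv k S else 0, ?_, ?_⟩
  · intro i k
    rw [← hxy i k]
    refine sum_congr rfl fun r _ => ?_
    by_cases hr : r = t0
    · subst hr
      rw [h0, zero_mul, zero_mul]
    · beta_reduce
      rw [if_neg (fun h => hr h.2), add_zero]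
  · obtain ⟨s, hs⟩ : ∃ s : ZMod 2, s = ∑ k, ∑ S, yv k S := ⟨_, rfl⟩
    rw [← hs]
    simp only [sum_add_distrib]
    rw [← hs, sum_eq_single (0 : F × F), sum_eq_single t0, if_pos ⟨rfl, rfl⟩]
    · rw [add_comm 1 s, ← add_assoc, CharTwo.add_self_eq_zero, zero_add]
    · intro S _ hS
      rw [if_neg (fun h => hS h.2)]
    · intro h
      exact absurd (mem_univ _) h
    · intro k _ hk
      refine sum_eq_zero fun S _ => ?_
      rw [if_neg (fun h => hk h.1)]
    · intro h
      exact absurd (mem_univ _) h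

theorem good {F : Type} [Field F] [Fintype F] [DecidableEq F]
    {xv yv : F × F → TT d m → ZMod 2}
    (hxy : ∀ i k, ∑ r, xv i r * yv k r = if inc i k then 1 else 0)
    (hsum : ∑ k, ∑ S, yv k S = 1) (hq : Odd q)
    (hW : 8 * ((2 * q ^ 2) ^ d * (2 * Fintype.card F ^ 4) +
      (Fintype.card F ^ 4) ^ 2 * (d * (36 * q * (45 * q ^ 2) ^ (d - 1)))) ≤
        (q ^ d * Fintype.card F ^ 3) ^ 2) : (pt F q xv yv).Good := by
  have hq1 : 1 ≤ q := hq.pos
  have hT1 := pt_Ttot (q := q) (xv := xv) (yv := yv) hxy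
  have hpos : 0 < (pt F q xv yv).Ttot := by
    refine lt_of_lt_of_le ?_ hT1
    exact Nat.mul_pos (Nat.pow_pos hq1) (Nat.pow_pos Fintype.card_pos)
  refine ⟨hpos, ?_, ?_, ?_⟩
  · exact (Nat.mul_le_mul_left 8 (pt_W4 hq1 hxy)).trans (hW.trans (Nat.pow_le_pow_left hT1 2))
  · have h1 : ∀ k : F × F, aug ((pt F q xv yv).Q k) = ∑ S, yv k S := by
      intro k
      have h2 := augH_QQ (q := q) hq yv k
      rw [augH_apply] at h2
      exact h2
    exact (sum_congr rfl fun k _ => h1 k).trans hsum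
  · by_contra hcon
    push Not at hcon
    have : (pt F q xv yv).Ttot = 0 := by
      unfold Pat.Ttot Pat.N
      refine sum_eq_zero fun k _ => sum_eq_zero fun i _ => ?_
      rw [hcon i, zero_mul]
      simp
    omega

/-- numerics -/
theorem num (A : ℕ) : ∃ q : ℕ, Odd q ∧ 8 * ((2 * q ^ 2) ^ 35 * (2 * (2 ^ 20) ^ 4) +
      A * (35 * (36 * q * (45 * q ^ 2) ^ (35 - 1)))) ≤ (q ^ 35 * (2 ^ 20) ^ 3) ^ 2 := by
  obtain ⟨C, hC⟩ : ∃ C : ℕ, C = A * (35 * (36 * 45 ^ 34)) := ⟨_, rfl⟩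
  refine ⟨8 * C + 1, ⟨4 * C, by ring⟩, ?_⟩
  obtain ⟨q, hq⟩ : ∃ q : ℕ, q = 8 * C + 1 := ⟨_, rfl⟩
  rw [← hq]
  have h1 : A * (35 * (36 * q * (45 * q ^ 2) ^ (35 - 1))) = C * q ^ 69 := by
    rw [hC]
    ring
  have h2 : (2 * q ^ 2) ^ 35 * (2 * (2 ^ 20) ^ 4) = 2 ^ 116 * q ^ 70 := by ring
  have h3 : (q ^ 35 * (2 ^ 20) ^ 3) ^ 2 = 2 ^ 120 * q ^ 70 := by ring
  have h4 : q ^ 70 = (8 * C + 1) * q ^ 69 := by
    rw [← hq]
    ring
  have h5 : 8 * (C * q ^ 69) ≤ q ^ 70 := by
    rw [h4]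
    have : 8 * (C * q ^ 69) = (8 * C) * q ^ 69 := by ring
    rw [this]
    exact Nat.mul_le_mul_right _ (by omega)
  have h6 : 8 * (2 ^ 116 * q ^ 70) + q ^ 70 ≤ 2 ^ 120 * q ^ 70 := by
    generalize q ^ 70 = z
    norm_num
    omega
  rw [h1, h2, h3, mul_add]
  exact (Nat.add_le_add_left h5 _).trans h6

/-- PART A -/
theorem stmtA : StmtA := by
  classical
  obtain ⟨F, iF, iT, iD, xv, yv, t0, hF, h0, hxy⟩ := exists_factor (e := 20) (by norm_num) card_TT
  obtain ⟨yv', hxy', hsum⟩ := correct h0 hxy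
  obtain ⟨q, hq, hn⟩ := num ((Fintype.card F ^ 4) ^ 2)
  refine ⟨pt F q xv yv', good hxy' hsum hq ?_⟩
  rw [← hF] at hn
  exact hn

end Vale.Agent.P201.Z.PA.Fi
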