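import Vale.Agent.P201.Z.A.Lam

/-! P201, part A: `stmtA`. -/

namespace Vale.Agent.P201.Z.PA.StA

open Finset AddMonoidAlgebra Vale.Agent.P201.Z.PA Vale.Agent.P201.Z.PA.Lam

theorem augH_PP {ι : Type} {d m q : ℕ} (hq : Odd q) (xv : ι → TT d m → ZMod 2) (k : ι) :
    augH (PP q xv k) = ∑ S, xv k S := by
  unfold PP
  rw [map_sum]
  refine sum_congr rfl fun S _ => ?_
  rw [map_smul, map_prod]
  simp only [augH_L]
  have : (q : ZMod 2) = 1 := by
    rw [ZMod.natCast_eq_one_iff_odd]
    exact hq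
  rw [this, prod_const_one, smul_eq_mul, mul_one]

theorem inc_symm {F : Type} [Field F] (h2 : (2 : F) = 0) (i k : F × F) : inc i k ↔ inc k i := by
  unfold inc
  constructor
  · intro h
    rw [h]
    linear_combination (-k.1 * i.1) * h2
  · intro h
    rw [h]
    linear_combination (-k.1 * i.1) * h2

theorem main {e d m : ℕ} (he : e ≠ 0) (hm : 3 ^ e + 1 < d.choose m) (hd1 : 2 * m < d)
    (hc : 8 * 2 ^ (d + 1) < 4 ^ e) : StmtA := by
  classical
  obtain ⟨F, _, _, _, xv0, yv0, t0, hF, h0, h⟩ :=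
    exists_factor he (T := TT d m) (by rw [card_TT]; exact hm)
  have h2 : (2 : F) = 0 := by
    have h3 : ((Fintype.card F : ℕ) : F) = 0 := by
      exact Nat.cast_card_eq_zero F
    rw [hF] at h3
    push_cast at h3
    exact pow_eq_zero_iff he |>.1 h3
  -- swap the roles
  let v : ZMod 2 := 1 - ∑ x : F × F, ∑ S ∈ univ.erase t0, yv0 x S -
    ∑ x ∈ (univ : Finset (F × F)).erase 0, yv0 x t0
  let xv : F × F → TT d m → ZMod 2 := fun x =>
    if x = 0 then Function.update (yv0 x) t0 v else yv0 x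
  let yv : F × F → TT d m → ZMod 2 := xv0
  have hxy : ∀ x l, ∑ r, xv x r * yv l r = if inc x l then 1 else 0 := by
    intro x l
    have h3 : ∑ r, xv x r * yv l r = ∑ r, xv0 l r * yv0 x r := by
      refine sum_congr rfl fun r _ => ?_
      show (if x = 0 then Function.update (yv0 x) t0 v else yv0 x) r * xv0 l r = _
      by_cases hr : r = t0
      · rw [hr, h0 l]; ring
      · split_ifs with hx
        · rw [Function.update_of_ne hr]; ring
        · ring
    rw [h3, h l x]
    simp only [inc_symm h2 l x]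
  have haug : ∑ x, ∑ S, xv x S = 1 := by
    have h3 : ∀ x, ∑ S, xv x S = ∑ S ∈ univ.erase t0, yv0 x S + if x = 0 then v else yv0 x t0 := by
      intro x
      rw [← Finset.sum_erase_add _ _ (mem_univ t0)]
      congr 1
      · refine sum_congr rfl fun r hr => ?_
        show (if x = 0 then Function.update (yv0 x) t0 v else yv0 x) r = _
        split_ifs with hx
        · rw [Function.update_of_ne (ne_of_mem_erase hr)]
        · rfl
      · show (if x = 0 then Function.update (yv0 x) t0 v else yv0 x) t0 = _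
        split_ifs with hx
        · rw [Function.update_self]
        · rfl
    simp only [h3, sum_add_distrib]
    have h4 : ∑ x : F × F, (if x = 0 then v else yv0 x t0) =
        ∑ x ∈ (univ : Finset (F × F)).erase 0, yv0 x t0 + v := by
      rw [← Finset.sum_erase_add _ _ (mem_univ (0 : F × F)), if_pos rfl]
      congr 1
      refine sum_congr rfl fun x hx => ?_
      rw [if_neg (ne_of_mem_erase hx)]
    rw [h4]
    simp only [v]
    ring
  set f := Fintype.card F with hf
  have hf0 : 0 < f := by rw [hF]; positivity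
  set E := f ^ 8 * (d * (48 * 54 ^ (d - 1))) with hE
  set q := 1 + 2 * (8 * E) with hq
  have hqo : Odd q := ⟨8 * E, by omega⟩
  have hq1 : 1 ≤ q := by omega
  have hT := Ttot_ge (q := q) hxy
  have hW := W4_le (q := q) hq1 hxy
  have hd : 1 ≤ d := by omega
  have hT0 : 0 < q ^ d * f ^ 3 := by positivity
  have hf2 : f ^ 2 = 4 ^ e := by
    rw [hF, ← pow_mul, mul_comm e 2, pow_mul]
    norm_num
  have hf4 : 1 ≤ f ^ 4 := Nat.one_le_pow _ _ hf0
  have hTp : 0 < (pat q xv yv).Ttot := lt_of_lt_of_le hT0 hT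
  refine ⟨pat q xv yv, hTp, ?_, ?_, ?_⟩
  · have e1 : (2 * q ^ 2) ^ d * (2 * f ^ 4) + f ^ 8 * (d * ((48 * q) * (54 * q ^ 2) ^ (d - 1))) =
        2 ^ (d + 1) * (f ^ 4 * q ^ (2 * d)) + E * q ^ (2 * d - 1) := by
      have e2 : q * (q ^ 2) ^ (d - 1) = q ^ (2 * d - 1) := by
        rw [← pow_mul, ← pow_succ']
        congr 1
        omega
      rw [mul_pow, mul_pow 54, ← pow_mul, pow_succ, hE, ← e2]
      ring
    have e3 : q * q ^ (2 * d - 1) = q ^ (2 * d) := by
      rw [← pow_succ']
      congr 1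
      omega
    have h5 : 8 * (pat q xv yv).W4 ≤ 8 * 2 ^ (d + 1) * (f ^ 4 * q ^ (2 * d)) + q ^ (2 * d) := by
      calc 8 * (pat q xv yv).W4 ≤ 8 * (2 ^ (d + 1) * (f ^ 4 * q ^ (2 * d)) + E * q ^ (2 * d - 1)) := by
            refine Nat.mul_le_mul_left _ ?_
            rw [← e1]
            exact hW
        _ = 8 * 2 ^ (d + 1) * (f ^ 4 * q ^ (2 * d)) + 8 * E * q ^ (2 * d - 1) := by ring
        _ ≤ _ := by
            refine Nat.add_le_add_left ?_ _
            rw [← e3]
            exact Nat.mul_le_mul_right _ (by omega)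
    have h6 : q ^ (2 * d) ≤ f ^ 4 * q ^ (2 * d) := Nat.le_mul_of_pos_left _ (by omega)
    calc 8 * (pat q xv yv).W4 ≤ (8 * 2 ^ (d + 1) + 1) * (f ^ 4 * q ^ (2 * d)) := by
          rw [add_mul, one_mul]
          exact h5.trans (Nat.add_le_add_left h6 _)
      _ ≤ (4 ^ e) * (f ^ 4 * q ^ (2 * d)) := Nat.mul_le_mul_right _ (by omega)
      _ = (q ^ d * f ^ 3) ^ 2 := by
          rw [← hf2]
          ring
      _ ≤ (pat q xv yv).Ttot ^ 2 := Nat.pow_le_pow_left hT 2
  · have h5 : ∀ k, aug ((pat q xv yv).Q k) = ∑ S, xv k S := by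
      intro k
      rw [← augH_PP hqo xv k, augH_apply]
      rfl
    rw [← haug]
    exact sum_congr rfl fun k _ => h5 k
  · by_contra hcon
    push Not at hcon
    apply hTp.ne'
    unfold Pat.Ttot Pat.N
    refine sum_eq_zero fun k _ => sum_eq_zero fun i _ => ?_
    rw [hcon i]
    simp

theorem stmtA : StmtA := by
  have h : (35 : ℕ).choose 17 = 4537567650 := by
    rw [Nat.choose_eq_descFactorial_div_factorial]
    rfl
  exact main (e := 20) (d := 35) (m := 17) (by norm_num)
    (by rw [h]; norm_num) (by norm_num) (by norm_num)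

end Vale.Agent.P201.Z.PA.StA

namespace Vale.Agent.P201.Z

/-- **PART A** -/
theorem stmtA : StmtA := PA.StA.stmtA

end Vale.Agent.P201.Z
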